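import Crest.Agent.N221.NC.Defs
import Crest.Agent.N221.NB.Cv

/-! Row 221, block NC, leaf `Cmp` (helper40): comparison of two nodes (N3). -/

set_option autoImplicit false

open Set Metric
open scoped ContDiff Topology

noncomputable section

namespace Crest.Agent.N221.NC

open NB

namespace CmpP

variable {E X V : Type} [NormedAddCommGroup E] [NormedSpace ℝ E] [NormedAddCommGroup X]
  [NormedSpace ℝ X] [NormedAddCommGroup V] [NormedSpace ℝ V]

theorem jet_id (y : E) {j : ℕ} (hj : 1 ≤ j) : ‖iteratedFDeriv ℝ j (fun x : E => x) y‖ ≤ 1 := by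
  obtain ⟨j, rfl⟩ := Nat.exists_eq_add_of_le' hj
  rw [← norm_iteratedFDeriv_fderiv, show fderiv ℝ (fun x : E => x) =
    fun _ => ContinuousLinearMap.id ℝ E from funext fun _ => fderiv_fun_id]
  rcases eq_or_ne j 0 with rfl | hk
  · rw [norm_iteratedFDeriv_zero]; exact ContinuousLinearMap.norm_id_le
  · rw [iteratedFDeriv_const_of_ne hk]; simp

/-- the image of an almost polynomial state under `f ∘ g`, `g` a linear contraction -/
theorem ap_comp {R ε : ℝ} {c : ℕ → ℝ} {N : ℕ} {z : ℝ → X}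
    (h : ∀ τ ∈ Icc (0 : ℝ) 1, z τ ∈ ball (0 : X) R ∧ ContDiffAt ℝ ∞ z τ ∧
      ∀ (V : Type) [NormedAddCommGroup V] [NormedSpace ℝ V] (Γ : X → V),
        ContDiffOn ℝ ∞ Γ (ball 0 R) →
        (∀ z ∈ ball (0 : X) R, ∀ j, 1 ≤ j → ‖iteratedFDeriv ℝ j Γ z‖ ≤ c j) →
        ‖iteratedDeriv N (fun τ => Γ (z τ)) τ‖ ≤ ε)
    (g : X →L[ℝ] E) (hg : ∀ w, ‖g w‖ ≤ ‖w‖) {f : E → V} (hf : ContDiffOn ℝ ∞ f (ball 0 R))
    (hj : ∀ y ∈ ball (0 : E) R, ∀ j, 1 ≤ j → ‖iteratedFDeriv ℝ j f y‖ ≤ c j) :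
    AP N ε fun τ => f (g (z τ)) := by
  have hm : ∀ w ∈ ball (0 : X) R, g w ∈ ball (0 : E) R := fun w hw =>
    mem_ball_zero_iff.2 ((hg w).trans_lt (mem_ball_zero_iff.1 hw))
  have hΓ : ContDiffOn ℝ ∞ (f ∘ g) (ball 0 R) := hf.comp g.contDiff.contDiffOn hm
  have g1 : ‖g‖ ≤ 1 := g.opNorm_le_bound zero_le_one fun w => by rw [one_mul]; exact hg w
  have ho : IsOpen (g ⁻¹' ball (0 : E) R) := isOpen_ball.preimage g.continuous
  refine ⟨fun τ hτ => (hΓ.contDiffAt (isOpen_ball.mem_nhds (h τ hτ).1)).comp τ (h τ hτ).2.1,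
    fun τ hτ => (h τ hτ).2.2 V (f ∘ g) hΓ fun w hw j j1 => ?_⟩
  rw [← iteratedFDerivWithin_of_isOpen j ho (hm w hw), g.iteratedFDerivWithin_comp_right hf
    isOpen_ball.uniqueDiffOn ho.uniqueDiffOn (hm w hw) (Ex.le_infty j),
    iteratedFDerivWithin_of_isOpen j isOpen_ball (hm w hw)]
  refine (ContinuousMultilinearMap.norm_compContinuousLinearMap_le _ _).trans ?_
  exact (mul_le_of_le_one_right (norm_nonneg _)
    (Finset.prod_le_one (fun _ _ => norm_nonneg _) fun _ _ => g1)).trans (hj _ (hm w hw) j j1)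

end CmpP

open CmpP


end Crest.Agent.N221.NC
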