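import Crest.Agent.N221.A1.PAll

/-!
Row 221, block NC (helper28): the analytic core N2-N5 of NO-BRANCHING (notes h28-2, h57-5).
Pure Mathlib.  Discrete time `S ≤ T`; `Φ S` is the chart map from time `S + 1` BACK to time `S`
along the orbit of a node, `x S τ` the curve of the node read at time `S` (junk while it is outside
the chart), `A S τ (1, 0)` the variation towards the next node, `A S τ (0, ·)` a frame of `Y_u`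
that is a unit frame at time `T`, `H S` the change of chart from the next node to this node,
`P i j τ` the point of the curve of node `i` at time `-j` in a (pseudo) metric space.
-/

set_option autoImplicit false

open Set Metric
open scoped ContDiff Topology

noncomputable section

namespace Crest.Agent.N221.NC

/-- the constants -/
structure Cst where
  R : ℝ
  Λ : ℝ
  χ : ℝ
  K : ℝ
  α : ℝ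
  g : ℝ
  τ0 : ℝ
  c1 : ℝ
  κ0 : ℝ
  c : ℕ → ℝ
  d : ℕ → ℝ

structure Cst.Ok (k : Cst) : Prop where
  R : 0 < k.R
  R1 : k.R ≤ 1
  Λ : 0 < k.Λ
  χ : 0 < k.χ
  K : 1 ≤ k.K
  α : 0 ≤ k.α
  g : 0 < k.g
  τ0 : 0 < k.τ0
  τ1 : k.τ0 ≤ 1
  c1 : 0 < k.c1
  κ0 : 0 < k.κ0
  κ1 : k.κ0 ≤ 1
  c : ∀ j, 1 ≤ k.c j
  d : ∀ j, 0 ≤ k.d j
  small : 4 * Real.exp k.Λ * k.c 2 * k.R ≤ 1

/-- the mesh of the partition -/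
def Cst.D (k : Cst) (T : ℕ) : ℝ := Real.exp (-(k.c1 * T))

section structures

variable {E G : Type} [NormedAddCommGroup E] [NormedSpace ℝ E] [NormedAddCommGroup G]
  [NormedSpace ℝ G]

/-- the chain of one node and its curve (`Lf S` = strong stable plaque of the centre, `ν` = an
adapted norm on it) -/
structure Crv (k : Cst) (T : ℕ) (ν : E → ℝ) (Φ : ℕ → E → E) (Lf : ℕ → Set E) (x : ℕ → ℝ → E) :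
    Prop where
  sm : ∀ S < T, ContDiffOn ℝ ∞ (Φ S) (ball 0 k.R)
  zero : ∀ S < T, Φ S 0 = 0
  d1 : ∀ S < T, ∀ y ∈ ball (0 : E) k.R, ‖fderiv ℝ (Φ S) y‖ ≤ Real.exp k.Λ
  dj : ∀ S < T, ∀ y ∈ ball (0 : E) k.R, ∀ j, 1 ≤ j → ‖iteratedFDeriv ℝ j (Φ S) y‖ ≤ k.c j
  low : ∀ S < T, ∀ y ∈ ball (0 : E) k.R, ∀ v, ‖v‖ ≤ Real.exp k.Λ * ‖fderiv ℝ (Φ S) y v‖
  leaf : ∀ S < T, ∀ y ∈ Lf (S + 1), y ∈ ball (0 : E) k.R →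
    Φ S y ∈ Lf S ∧ ν y ≤ Real.exp (-k.χ) * ν (Φ S y)
  nu : ∀ S ≤ T, ∀ y ∈ Lf S, y ∈ ball (0 : E) k.R → ‖y‖ ≤ k.K * ν y
  nu' : ∀ y, ν y ≤ ‖y‖
  rel : ∀ S < T, x S = Φ S ∘ x (S + 1)
  top : ∀ τ ∈ Icc (0 : ℝ) 1, ContDiffAt ℝ ∞ (x T) τ ∧ x T τ ∈ Lf T ∧
    ‖x T τ‖ ≤ k.K * Real.exp (-(k.g * T)) ∧
    ∀ j, 1 ≤ j → ‖iteratedDeriv j (x T) τ‖ ≤ k.d j * Real.exp (-(k.g * T)) ^ j
  known : ∀ τ ∈ Icc (0 : ℝ) k.τ0, ∀ S ≤ T,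
    x S τ ∈ ball (0 : E) k.R ∧ ‖x S τ‖ ≤ k.K * Real.exp (-(k.χ * S))

/-- a family of vectors transported along the curve -/
structure Tr {F : Type} [NormedAddCommGroup F] [NormedSpace ℝ F] (k : Cst) (T : ℕ)
    (Φ : ℕ → E → E) (x : ℕ → ℝ → E) (A : ℕ → ℝ → F →L[ℝ] E) : Prop where
  rel : ∀ S < T, ∀ τ, A S τ = fderiv ℝ (Φ S) (x (S + 1) τ) ∘L A (S + 1) τ
  top : ∀ τ ∈ Icc (0 : ℝ) 1, ContDiffAt ℝ ∞ (A T) τ ∧ ∀ j,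
    ‖iteratedDeriv j (A T) τ‖ ≤ k.d j * Real.exp (k.α * T) * Real.exp (-(k.g * T)) ^ j

/-- the variation and the frame of `Y_u` -/
structure Var (k : Cst) (T : ℕ) (Φ : ℕ → E → E) (x : ℕ → ℝ → E)
    (A : ℕ → ℝ → (ℝ × G) →L[ℝ] E) : Prop where
  tr : Tr k T Φ x A
  floor : ∀ τ ∈ Icc (0 : ℝ) 1, ∀ a, ‖a‖ ≤ k.K * ‖A T τ (0, a)‖
  known : ∀ τ ∈ Icc (0 : ℝ) k.τ0, ‖A 0 τ (1, 0)‖ ≤ k.K * k.D T ∧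
    ∃ a, ‖A 0 τ (1, 0) - A 0 τ (0, a)‖ ≤ k.K * k.D T ^ 2

/-- the curve `x'` of the next node in the charts of this node -/
structure Link (k : Cst) (T : ℕ) (Φ : ℕ → E → E) (x x' : ℕ → ℝ → E)
    (A : ℕ → ℝ → (ℝ × G) →L[ℝ] E) (H : ℕ → E → E) : Prop where
  sm : ∀ S : ℕ, (S : ℝ) ≤ k.κ0 * T → ContDiffOn ℝ ∞ (H S) (ball 0 k.R) ∧
    ∀ y ∈ ball (0 : E) k.R, ∀ j, 1 ≤ j → ‖iteratedFDeriv ℝ j (H S) y‖ ≤ k.c j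
  mem : ∀ τ ∈ Icc (0 : ℝ) k.τ0, ∀ S : ℕ, (S : ℝ) ≤ k.κ0 * T → H S (x' S τ) ∈ ball (0 : E) k.R
  rel : ∀ τ ∈ Icc (0 : ℝ) k.τ0, ∀ S : ℕ, ((S + 1 : ℕ) : ℝ) ≤ k.κ0 * T →
    H S (x' S τ) = Φ S (H (S + 1) (x' (S + 1) τ))
  known : ∀ τ ∈ Icc (0 : ℝ) k.τ0, ‖H 0 (x' 0 τ) - x 0 τ - A 0 τ (1, 0)‖ ≤ k.K * k.D T ^ 2

/-- backward contraction of `Y_u` (see `DevS`) -/
def Bk {X : Type} [PseudoMetricSpace X] (k : Cst) (T : ℕ) (x x' : ℕ → ℝ → E)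
    (A : ℕ → ℝ → (ℝ × G) →L[ℝ] E) (H : ℕ → E → E) (P P' : ℕ → ℝ → X) : Prop :=
  ∀ τ ∈ Icc (0 : ℝ) 1, ∀ S j : ℕ, (S : ℝ) ≤ k.κ0 * T →
    (∀ S', S ≤ S' → S' ≤ T → ‖x S' τ‖ ≤ k.R / k.K ∧ ‖x' S' τ‖ ≤ k.R / k.K) →
    Real.exp (k.Λ * (S + j)) * ‖H S (x' S τ) - x S τ‖ ≤ k.R / k.K → ∀ a,
    dist (P' j τ) (P j τ) ≤ k.K * (Real.exp (-(k.χ * (S + j))) * ‖A S τ (0, a)‖ +
      Real.exp (k.Λ * (S + j)) * ‖H S (x' S τ) - x S τ - A S τ (0, a)‖ +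
      Real.exp (2 * k.Λ * (S + j)) * ‖H S (x' S τ) - x S τ‖ ^ 2)

end structures

/-- THE CORE: the polygon of the ends of the curves has vanishing length at some negative time -/
def CoreS : Prop := ∀ (E G : Type) [NormedAddCommGroup E] [NormedSpace ℝ E]
  [FiniteDimensional ℝ E] [NormedAddCommGroup G] [NormedSpace ℝ G] [FiniteDimensional ℝ G]
  (k : Cst), k.Ok → ∀ η : ℝ, 0 < η → ∃ T0 : ℕ, ∀ T, T0 ≤ T →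
  ∀ (X : Type) [PseudoMetricSpace X] (n : ℕ) (ν : E → ℝ) (Φ H : ℕ → ℕ → E → E)
    (Lf : ℕ → ℕ → Set E) (x : ℕ → ℕ → ℝ → E) (A : ℕ → ℕ → ℝ → (ℝ × G) →L[ℝ] E)
    (P : ℕ → ℕ → ℝ → X), n * k.D T ≤ k.K → (∀ i ≤ n, Crv k T ν (Φ i) (Lf i) (x i)) →
    (∀ i < n, Var k T (Φ i) (x i) (A i) ∧ Link k T (Φ i) (x i) (x (i + 1)) (A i) (H i) ∧
      Bk k T (x i) (x (i + 1)) (A i) (H i) (P i) (P (i + 1))) →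
    ∃ τ ∈ Icc (0 : ℝ) 1, 1 - η ≤ τ ∧ ∃ j, dist (P n j τ) (P 0 j τ) ≤ η

/-! ### leaves -/

/-- Gram determinant `g V = det (V* V)` and `Q (V, U) = g V • U - V adj (V* V) V* U` for a
Euclidean structure (`toEuclidean`, basis `Module.finBasis`).  `V* Q = 0`, hence
`‖Q‖² = g ⟪Q, U - V a⟫`. -/
def GramS : Prop := ∀ (E G : Type) [NormedAddCommGroup E] [NormedSpace ℝ E]
  [FiniteDimensional ℝ E] [NormedAddCommGroup G] [NormedSpace ℝ G] [FiniteDimensional ℝ G],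
  ∃ (g : (G →L[ℝ] E) → ℝ) (Q : (G →L[ℝ] E) × E → E) (p : ℕ) (C : ℝ), 1 ≤ C ∧ ContDiff ℝ ∞ g ∧
    ContDiff ℝ ∞ Q ∧ (∀ (l : ℝ) V, g (l • V) = l ^ p * g V) ∧
    (∀ (l : ℝ) V U, Q (l • V, l • U) = l ^ (p + 1) • Q (V, U)) ∧ (∀ V, 0 ≤ g V) ∧
    (∀ V U a, ‖Q (V, U)‖ ≤ C * g V * ‖U - V a‖) ∧
    (∀ V U, 0 < g V → ∃ a, g V * ‖U - V a‖ ≤ ‖Q (V, U)‖) ∧
    ∀ V (μ : ℝ), 0 ≤ μ → (∀ a, μ * ‖a‖ ≤ ‖V a‖) → μ ^ p ≤ C * g V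

/-- an almost polynomial function that is small at `N + 1` separated points is small
(Taylor at `0` with Lagrange remainder, `Lagrange.eq_interpolate`) -/
def GridS : Prop := ∀ (N : ℕ) (f : ℝ → ℝ) (s : Finset ℝ) (ρ η ε : ℝ), 0 < ρ → ρ ≤ 1 →
  (∀ t ∈ Icc (0 : ℝ) 1, ContDiffAt ℝ ∞ f t) →
  (∀ t ∈ Icc (0 : ℝ) 1, |iteratedDeriv (N + 1) f t| ≤ ε) → s.card = N + 1 →
  (∀ t ∈ s, t ∈ Icc (0 : ℝ) 1 ∧ |f t| ≤ η) → (∀ t ∈ s, ∀ t' ∈ s, t ≠ t' → ρ ≤ |t - t'|) →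
  ∀ t ∈ Icc (0 : ℝ) 1, |f t| ≤ (N + 1) * (η + ε) / ρ ^ N + ε

/-- jets of the tangent map -/
def ExtS : Prop := ∀ c : ℕ → ℝ, (∀ j, 1 ≤ c j) → ∃ c' : ℕ → ℝ,
  ∀ (E F : Type) [NormedAddCommGroup E] [NormedSpace ℝ E] [NormedAddCommGroup F]
    [NormedSpace ℝ F] (Φ : E → E) (R : ℝ), R ≤ 1 → ContDiffOn ℝ ∞ Φ (ball 0 R) →
    (∀ y ∈ ball (0 : E) R, ∀ j, 1 ≤ j → ‖iteratedFDeriv ℝ j Φ y‖ ≤ c j) →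
    ContDiffOn ℝ ∞ (fun z : E × (F →L[ℝ] E) => (Φ z.1, fderiv ℝ Φ z.1 ∘L z.2)) (ball 0 R) ∧
    ∀ z ∈ ball (0 : E × (F →L[ℝ] E)) R, ∀ j, 1 ≤ j →
      ‖iteratedFDeriv ℝ j (fun z : E × (F →L[ℝ] E) => (Φ z.1, fderiv ℝ Φ z.1 ∘L z.2)) z‖ ≤ c' j

/-- ESCAPE: after time `s T` the whole curve is tiny -/
def EscS : Prop := ∀ (k : Cst), k.Ok → ∀ s : ℝ, 0 < s → ∃ g' : ℝ, 0 < g' ∧ ∃ T0 : ℕ, ∀ T, T0 ≤ T →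
  ∀ (E : Type) [NormedAddCommGroup E] [NormedSpace ℝ E] [CompleteSpace E] (ν : E → ℝ)
    (Φ : ℕ → E → E) (Lf : ℕ → Set E) (x : ℕ → ℝ → E), Crv k T ν Φ Lf x →
    ∀ S : ℕ, s * T ≤ S → S ≤ T → ∀ τ ∈ Icc (0 : ℝ) 1, ‖x S τ‖ ≤ Real.exp (-(g' * T))

/-- ALMOST POLYNOMIAL: `CLS` for the state `(x, λ A)`, `λ = exp (-μ T)` -/
def ApS : Prop := ∀ (k : Cst), k.Ok → ∀ s : ℝ, 0 < s → ∃ μ : ℝ, 0 ≤ μ ∧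
  ∀ (β : ℝ) (e : ℕ → ℝ), 0 ≤ β → ∃ N T0 : ℕ, ∀ T, T0 ≤ T →
  ∀ (E F : Type) [NormedAddCommGroup E] [NormedSpace ℝ E] [CompleteSpace E]
    [NormedAddCommGroup F] [NormedSpace ℝ F] (ν : E → ℝ)
    (Φ : ℕ → E → E) (Lf : ℕ → Set E) (x : ℕ → ℝ → E) (A : ℕ → ℝ → F →L[ℝ] E),
    Crv k T ν Φ Lf x → Tr k T Φ x A →
    ∀ S : ℕ, s * T ≤ S → S ≤ T → ∀ τ ∈ Icc (0 : ℝ) 1,
      (x S τ, Real.exp (-(μ * T)) • A S τ) ∈ ball (0 : E × (F →L[ℝ] E)) k.R ∧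
      ContDiffAt ℝ ∞ (fun τ => (x S τ, Real.exp (-(μ * T)) • A S τ)) τ ∧
      ∀ (V : Type) [NormedAddCommGroup V] [NormedSpace ℝ V] (Γ : E × (F →L[ℝ] E) → V),
        ContDiffOn ℝ ∞ Γ (ball 0 k.R) →
        (∀ z ∈ ball (0 : E × (F →L[ℝ] E)) k.R, ∀ j, 1 ≤ j → ‖iteratedFDeriv ℝ j Γ z‖ ≤ e j) →
        ‖iteratedDeriv (N + 1) (fun τ => Γ (x S τ, Real.exp (-(μ * T)) • A S τ)) τ‖ ≤
          Real.exp (-(β * T))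




/-- averaging over a grid -/
def AvgS : Prop := ∀ (n m N : ℕ) (h : ℕ → ℕ → ℝ) (Bad : ℕ → ℕ → Prop) (u v : ℝ), 0 < m → 0 ≤ u →
  0 ≤ v → (∀ i < n, ∀ s : Finset ℕ, (∀ l ∈ s, l < m ∧ Bad i l) → s.card ≤ N) →
  (∀ i < n, ∀ l < m, h i l ≤ v ∧ (¬ Bad i l → h i l ≤ u)) →
  ∃ l < m, ∑ i ∈ Finset.range n, h i l ≤ n * u + n * N * v / m


end Crest.Agent.N221.NC
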