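import Crest.Agent.N221.NC.Defs

/-! Row 221, block NC: growth of the errors on the known part (leaf NC-Kn, helper43). -/

set_option autoImplicit false

open Set Metric
open scoped ContDiff Topology

noncomputable section

namespace Crest.Agent.N221.NC

namespace Kn

/-- second order Taylor estimate on a ball -/
lemma taylor {E : Type} [NormedAddCommGroup E] [NormedSpace ℝ E] {Φ : E → E} {R c : ℝ}
    (hΦ : ContDiffOn ℝ ∞ Φ (ball 0 R)) (hc : ∀ z ∈ ball (0 : E) R, ‖iteratedFDeriv ℝ 2 Φ z‖ ≤ c)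
    {x y : E} (hx : x ∈ ball (0 : E) R) (hy : y ∈ ball (0 : E) R) :
    ‖Φ y - Φ x - fderiv ℝ Φ x (y - x)‖ ≤ c * ‖y - x‖ * ‖y - x‖ := by
  have hs : segment ℝ x y ⊆ ball 0 R := (convex_ball _ _).segment_subset hx hy
  have h1 : ∀ z ∈ ball (0 : E) R, DifferentiableAt ℝ Φ z := fun z hz =>
    (hΦ.contDiffAt (isOpen_ball.mem_nhds hz)).differentiableAt (by simp)
  have h2 : ∀ z ∈ ball (0 : E) R, DifferentiableAt ℝ (fderiv ℝ Φ) z := fun z hz =>
    ((hΦ.fderiv_of_isOpen (m := ∞) isOpen_ball (by simp)).contDiffAt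
      (isOpen_ball.mem_nhds hz)).differentiableAt (by simp)
  have h3 : ∀ z ∈ ball (0 : E) R, ‖fderiv ℝ (fderiv ℝ Φ) z‖ ≤ c := fun z hz => by
    rw [← norm_iteratedFDeriv_one, norm_iteratedFDeriv_fderiv]; exact hc z hz
  refine (convex_segment x y).norm_image_sub_le_of_norm_fderiv_le' (fun z hz => h1 z (hs hz))
    (fun z hz => ?_) (left_mem_segment _ _ _) (right_mem_segment _ _ _)
  refine ((convex_ball 0 R).norm_image_sub_le_of_norm_fderiv_le h2 h3 hx (hs hz)).trans ?_
  refine mul_le_mul_of_nonneg_left ?_ ((norm_nonneg _).trans (hc x hx))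
  have := (convex_closedBall x ‖y - x‖).segment_subset (mem_closedBall_self (norm_nonneg _))
    (mem_closedBall_iff_norm.2 le_rfl) hz
  exact mem_closedBall_iff_norm.1 this

end Kn


end Crest.Agent.N221.NC
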