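import Crest.Agent.N221.NC.Defs
import Crest.Agent.N221.NC.Kn
import Crest.Agent.N221.Ni.NdD
import Crest.Agent.N221.G0.ApB
import Crest.Agent.N221.Ch.Dmb
import Crest.Agent.N221.A1.Dy
import Crest.Agent.N221.Ni.LkD
import Crest.Agent.N221.Ch.Prd
import Crest.Agent.N221.Ni.Defs
import Crest.Agent.N221.Dy.Hol
import Crest.Agent.N221.Ch.Unif
import Crest.Agent.N221.Dy.Nd
import Crest.Agent.N221.NC.Fd
import Crest.Agent.N221.NC.Cmp

-- ▼ part N221/NC/Ext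
section

/-! Row 221, block NC: jets of the tangent map (`ExtS`), second order deviation (`DevS`). -/

set_option autoImplicit false

open Set Metric
open scoped ContDiff Topology

namespace Crest.Agent.N221.NC

namespace Ext

variable {E F V : Type} [NormedAddCommGroup E] [NormedSpace ℝ E] [NormedAddCommGroup F]
  [NormedSpace ℝ F] [NormedAddCommGroup V] [NormedSpace ℝ V]

lemma le_inf (k : ℕ) : (k : WithTop ℕ∞) ≤ ∞ := by exact_mod_cast le_top

lemma fst_le {f : E → V} {U : Set E} (hU : IsOpen U) (hf : ContDiffOn ℝ ∞ f U) {z : E × F}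
    (hz : z.1 ∈ U) (j : ℕ) :
    ‖iteratedFDeriv ℝ j (fun z : E × F => f z.1) z‖ ≤ ‖iteratedFDeriv ℝ j f z.1‖ := by
  have ho : IsOpen (ContinuousLinearMap.fst ℝ E F ⁻¹' U) := hU.preimage continuous_fst
  have h := (ContinuousLinearMap.fst ℝ E F).iteratedFDerivWithin_comp_right hf hU.uniqueDiffOn
    ho.uniqueDiffOn (x := z) hz (le_inf j)
  rw [iteratedFDerivWithin_of_isOpen j ho hz, ContinuousLinearMap.coe_fst',
    iteratedFDerivWithin_of_isOpen j hU hz] at h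
  refine (congrArg norm h).trans_le ((ContinuousMultilinearMap.norm_compContinuousLinearMap_le _
    _).trans (mul_le_of_le_one_right (norm_nonneg _) ?_))
  exact Finset.prod_le_one (fun _ _ => norm_nonneg _) fun _ _ => ContinuousLinearMap.norm_fst_le ..

lemma snd_le {z : E × F} (hz : ‖z‖ ≤ 1) (j : ℕ) :
    ‖iteratedFDeriv ℝ j (fun z : E × F => z.2) z‖ ≤ 1 := by
  rcases j with _ | j
  · rw [norm_iteratedFDeriv_zero]
    exact (norm_snd_le z).trans hz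
  rw [← norm_iteratedFDeriv_fderiv, show fderiv ℝ (fun z : E × F => z.2) =
    fun _ => ContinuousLinearMap.snd ℝ E F from funext fun _ => fderiv_snd]
  rcases eq_or_ne j 0 with rfl | hj
  · rw [norm_iteratedFDeriv_zero]
    exact ContinuousLinearMap.norm_snd_le ..
  · rw [iteratedFDeriv_const_of_ne hj]
    simp

/-- one step: first and second order bounds -/
lemma one {Θ : E → E} {R b c : ℝ} (hc : 0 ≤ c) (h : ContDiffOn ℝ ∞ Θ (ball 0 R)) (h0 : Θ 0 = 0)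
    (hb : ∀ z ∈ ball (0 : E) R, ‖fderiv ℝ Θ z‖ ≤ b ∧ ‖iteratedFDeriv ℝ 2 Θ z‖ ≤ c) {y : E}
    (hy : y ∈ ball (0 : E) R) : ‖Θ y‖ ≤ b * ‖y‖ ∧ ‖Θ y - fderiv ℝ Θ 0 y‖ ≤ c * ‖y‖ ^ 2 ∧
      ‖fderiv ℝ Θ 0‖ ≤ b := by
  have hB := convex_ball (0 : E) R
  have hx : (0 : E) ∈ ball (0 : E) R := mem_ball_self ((norm_nonneg y).trans_lt (mem_ball_zero_iff.1 hy))
  have d1 : ∀ x ∈ ball (0 : E) R, DifferentiableAt ℝ Θ x := fun x hx =>
    (h.contDiffAt (isOpen_ball.mem_nhds hx)).differentiableAt (by simp)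
  have d2 : ∀ x ∈ ball (0 : E) R, DifferentiableAt ℝ (fderiv ℝ Θ) x := fun x hx =>
    ((h.fderiv_of_isOpen (m := ∞) isOpen_ball (by simp)).contDiffAt
      (isOpen_ball.mem_nhds hx)).differentiableAt (by simp)
  have l2 : ∀ z ∈ ball (0 : E) R, ‖fderiv ℝ Θ z - fderiv ℝ Θ 0‖ ≤ c * ‖z - 0‖ := fun z hz =>
    hB.norm_image_sub_le_of_norm_fderiv_le d2 (fun u hu => ((norm_iteratedFDeriv_one _).symm.trans
      norm_iteratedFDeriv_fderiv).trans_le (hb u hu).2) hx hz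
  have hs := hB.segment_subset hx hy
  have h1 := hB.norm_image_sub_le_of_norm_fderiv_le d1 (fun u hu => (hb u hu).1) hx hy
  have h2 := (convex_segment 0 y).norm_image_sub_le_of_norm_fderiv_le' (C := c * ‖y - 0‖)
    (fun u hu => d1 u (hs hu)) (fun u hu => (l2 u (hs hu)).trans
      (mul_le_mul_of_nonneg_left (norm_sub_le_of_mem_segment hu) hc)) (left_mem_segment ℝ 0 y)
    (right_mem_segment ℝ 0 y)
  simp only [h0, sub_zero] at h1 h2
  exact ⟨h1, h2.trans_eq (by ring), (hb 0 hx).1⟩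

end Ext

open Ext

theorem extS : ExtS := by
  intro c hc
  refine ⟨fun j => max (c j) (∑ i ∈ Finset.range (j + 1), (j.choose i : ℝ) * c (i + 1)), ?_⟩
  intro E F _ _ _ _ Φ R hR hΦ hb
  have m1 : MapsTo Prod.fst (ball (0 : E × (F →L[ℝ] E)) R) (ball 0 R) := fun z hz =>
    mem_ball_zero_iff.2 ((norm_fst_le z).trans_lt (mem_ball_zero_iff.1 hz))
  have hD : ContDiffOn ℝ ∞ (fderiv ℝ Φ) (ball 0 R) := hΦ.fderiv_of_isOpen isOpen_ball (by simp)
  have s1 : ContDiffOn ℝ ∞ (fun z : E × (F →L[ℝ] E) => Φ z.1) (ball 0 R) := hΦ.comp contDiffOn_fst m1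
  have s2 : ContDiffOn ℝ ∞ (fun z : E × (F →L[ℝ] E) => fderiv ℝ Φ z.1) (ball 0 R) :=
    hD.comp contDiffOn_fst m1
  have s3 := s2.clm_comp (contDiffOn_snd (E := E) (F := F →L[ℝ] E))
  refine ⟨s1.prodMk s3, fun z hz j hj => ?_⟩
  have hn := isOpen_ball.mem_nhds hz
  rw [iteratedFDeriv_prodMk (s1.contDiffAt hn) (s3.contDiffAt hn) (le_inf j),
    ContinuousMultilinearMap.opNorm_prod]
  refine max_le_max ((fst_le isOpen_ball hΦ (m1 hz) j).trans (hb _ (m1 hz) j hj)) ?_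
  rw [← iteratedFDerivWithin_of_isOpen j isOpen_ball hz]
  refine ((ContinuousLinearMap.compL ℝ F E E).norm_iteratedFDerivWithin_le_of_bilinear_of_le_one s2
    contDiffOn_snd isOpen_ball.uniqueDiffOn hz (le_inf j)
    (ContinuousLinearMap.norm_compL_le ..)).trans (Finset.sum_le_sum fun i _ => ?_)
  rw [iteratedFDerivWithin_of_isOpen _ isOpen_ball hz, iteratedFDerivWithin_of_isOpen _ isOpen_ball hz]
  refine (mul_le_of_le_one_right (by positivity)
    (snd_le ((mem_ball_zero_iff.1 hz).le.trans hR) _)).trans (mul_le_mul_of_nonneg_left ?_ (by positivity))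
  exact (fst_le isOpen_ball hD (m1 hz) i).trans
    (norm_iteratedFDeriv_fderiv.trans_le (hb _ (m1 hz) _ (Nat.le_add_left 1 i)))


end Crest.Agent.N221.NC
end

-- ▼ part N221/NC/Prod
section

/-! Row 221, block NC: product of two node chains (`Crv.prod`, `Tr.prod`) and the transfer of a
first order expansion from a later to an earlier time (`Crv.transfer`). -/

set_option autoImplicit false

open Set Metric
open scoped ContDiff Topology

noncomputable section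

namespace Crest.Agent.N221.NC

variable {E F V : Type} [NormedAddCommGroup E] [NormedSpace ℝ E] [NormedAddCommGroup F]
  [NormedSpace ℝ F] [NormedAddCommGroup V] [NormedSpace ℝ V]

lemma ball_prod {R : ℝ} {y : E × F} :
    y ∈ ball (0 : E × F) R ↔ y.1 ∈ ball (0 : E) R ∧ y.2 ∈ ball (0 : F) R := by
  simp only [mem_ball_zero_iff, Prod.norm_def, max_lt_iff]

/-- jets of `f ∘ L` for a linear contraction `L` -/
lemma jet_clm {f : E → V} {U : Set E} (hU : IsOpen U) (hf : ContDiffOn ℝ ∞ f U) (L : F →L[ℝ] E)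
    (hL : ‖L‖ ≤ 1) {z : F} (hz : L z ∈ U) (j : ℕ) :
    ‖iteratedFDeriv ℝ j (fun z => f (L z)) z‖ ≤ ‖iteratedFDeriv ℝ j f (L z)‖ := by
  have ho : IsOpen (L ⁻¹' U) := hU.preimage L.continuous
  have := L.iteratedFDerivWithin_comp_right hf hU.uniqueDiffOn ho.uniqueDiffOn hz (Ext.le_inf j)
  rw [iteratedFDerivWithin_of_isOpen _ ho hz, iteratedFDerivWithin_of_isOpen _ hU hz] at this
  change ‖iteratedFDeriv ℝ j (f ∘ L) z‖ ≤ _
  rw [this]
  refine (ContinuousMultilinearMap.norm_compContinuousLinearMap_le _ _).trans ?_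
  exact mul_le_of_le_one_right (norm_nonneg _)
    (Finset.prod_le_one (fun _ _ => norm_nonneg _) fun _ _ => hL)

section
variable {R : ℝ} {Φ : E → E} {Φ' : F → F} (h : ContDiffOn ℝ ∞ Φ (ball 0 R))
  (h' : ContDiffOn ℝ ∞ Φ' (ball 0 R))
include h h'

lemma sm_map : ContDiffOn ℝ ∞ (Prod.map Φ Φ') (ball 0 R) :=
  (h.comp contDiffOn_fst fun _ hy => (ball_prod.1 hy).1).prodMk
    (h'.comp contDiffOn_snd fun _ hy => (ball_prod.1 hy).2)

lemma fderiv_map {y : E × F} (hy : y ∈ ball (0 : E × F) R) (v : E × F) :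
    fderiv ℝ (Prod.map Φ Φ') y v = (fderiv ℝ Φ y.1 v.1, fderiv ℝ Φ' y.2 v.2) := by
  have a := ((h.contDiffAt (isOpen_ball.mem_nhds (ball_prod.1 hy).1)).differentiableAt
    (by simp)).hasFDerivAt
  have a' := ((h'.contDiffAt (isOpen_ball.mem_nhds (ball_prod.1 hy).2)).differentiableAt
    (by simp)).hasFDerivAt
  rw [(HasFDerivAt.prodMap y a a').fderiv]; rfl

lemma jet_map {y : E × F} (hy : y ∈ ball (0 : E × F) R) (j : ℕ) :
    ‖iteratedFDeriv ℝ j (Prod.map Φ Φ') y‖ ≤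
      max ‖iteratedFDeriv ℝ j Φ y.1‖ ‖iteratedFDeriv ℝ j Φ' y.2‖ := by
  have a := (sm_map h h').contDiffAt (isOpen_ball.mem_nhds hy)
  have e := iteratedFDeriv_prodMk a.fst a.snd (Ext.le_inf j)
  change iteratedFDeriv ℝ j (Prod.map Φ Φ') y = _ at e
  rw [e, ContinuousMultilinearMap.opNorm_prod]
  exact max_le_max (jet_clm isOpen_ball h (ContinuousLinearMap.fst ℝ E F)
      (ContinuousLinearMap.norm_fst_le ..) (ball_prod.1 hy).1 j)
    (jet_clm isOpen_ball h' (ContinuousLinearMap.snd ℝ E F)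
      (ContinuousLinearMap.norm_snd_le ..) (ball_prod.1 hy).2 j)

end

variable {k : Cst} {T : ℕ} {ν : E → ℝ} {Φ Φ' : ℕ → E → E} {Lf Lf' : ℕ → Set E} {x x' : ℕ → ℝ → E}

/-- the product of two node chains -/
theorem Crv.prod (hk : k.Ok) (h : Crv k T ν Φ Lf x) (h' : Crv k T ν Φ' Lf' x') :
    Crv k T (fun y : E × E => max (ν y.1) (ν y.2)) (fun S => Prod.map (Φ S) (Φ' S))
      (fun S => Lf S ×ˢ Lf' S) (fun S τ => (x S τ, x' S τ)) where
  sm S hS := sm_map (h.sm S hS) (h'.sm S hS)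
  zero S hS := by
    change (Φ S 0, Φ' S 0) = 0
    rw [h.zero S hS, h'.zero S hS]; rfl
  d1 S hS y hy := ContinuousLinearMap.opNorm_le_bound _ (Real.exp_pos _).le fun v => by
    rw [fderiv_map (h.sm S hS) (h'.sm S hS) hy, Prod.norm_def]
    exact max_le ((ContinuousLinearMap.le_opNorm _ _).trans (mul_le_mul
        (h.d1 S hS _ (ball_prod.1 hy).1) (norm_fst_le v) (norm_nonneg _) (Real.exp_pos _).le))
      ((ContinuousLinearMap.le_opNorm _ _).trans (mul_le_mul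
        (h'.d1 S hS _ (ball_prod.1 hy).2) (norm_snd_le v) (norm_nonneg _) (Real.exp_pos _).le))
  dj S hS y hy j hj := (jet_map (h.sm S hS) (h'.sm S hS) hy j).trans
    (max_le (h.dj S hS _ (ball_prod.1 hy).1 j hj) (h'.dj S hS _ (ball_prod.1 hy).2 j hj))
  low S hS y hy v := by
    rw [fderiv_map (h.sm S hS) (h'.sm S hS) hy, Prod.norm_def v]
    exact max_le ((h.low S hS _ (ball_prod.1 hy).1 v.1).trans
        (mul_le_mul_of_nonneg_left (norm_fst_le (_, _)) (Real.exp_pos _).le))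
      ((h'.low S hS _ (ball_prod.1 hy).2 v.2).trans
        (mul_le_mul_of_nonneg_left (norm_snd_le (_, _)) (Real.exp_pos _).le))
  leaf S hS y hy hb := by
    obtain ⟨a1, a2⟩ := h.leaf S hS _ hy.1 (ball_prod.1 hb).1
    obtain ⟨b1, b2⟩ := h'.leaf S hS _ hy.2 (ball_prod.1 hb).2
    exact ⟨⟨a1, b1⟩, max_le
      (a2.trans (mul_le_mul_of_nonneg_left (le_max_left _ _) (Real.exp_pos _).le))
      (b2.trans (mul_le_mul_of_nonneg_left (le_max_right _ _) (Real.exp_pos _).le))⟩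
  nu S hS y hy hb := by
    have hK : 0 ≤ k.K := by linarith [hk.K]
    rw [Prod.norm_def]
    exact max_le ((h.nu S hS _ hy.1 (ball_prod.1 hb).1).trans
        (mul_le_mul_of_nonneg_left (le_max_left _ _) hK))
      ((h'.nu S hS _ hy.2 (ball_prod.1 hb).2).trans
        (mul_le_mul_of_nonneg_left (le_max_right _ _) hK))
  nu' y := max_le ((h.nu' _).trans (norm_fst_le y)) ((h.nu' _).trans (norm_snd_le y))
  rel S hS := by
    ext1 τ
    rw [h.rel S hS, h'.rel S hS]; rfl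
  top τ hτ := by
    obtain ⟨a1, a2, a3, a4⟩ := h.top τ hτ
    obtain ⟨b1, b2, b3, b4⟩ := h'.top τ hτ
    refine ⟨a1.prodMk b1, ⟨a2, b2⟩, max_le a3 b3, fun j hj => ?_⟩
    simp only [iteratedDeriv_eq_iteratedFDeriv] at a4 b4 ⊢
    rw [iteratedFDeriv_prodMk a1 b1 (Ext.le_inf j)]
    exact max_le (a4 j hj) (b4 j hj)
  known τ hτ S hS := ⟨ball_prod.2 ⟨(h.known τ hτ S hS).1, (h'.known τ hτ S hS).1⟩,
    max_le (h.known τ hτ S hS).2 (h'.known τ hτ S hS).2⟩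

/-- transport from time `T` -/
def trp (T : ℕ) (Φ : ℕ → E → E) (x : ℕ → ℝ → E) (B : ℝ → F →L[ℝ] E) : ℕ → ℝ → F →L[ℝ] E
  | 0 => B
  | j + 1 => fun τ => fderiv ℝ (Φ (T - (j + 1))) (x (T - j) τ) ∘L trp T Φ x B j τ

/-- every family at time `T` is transported -/
theorem exists_tr (T : ℕ) (Φ : ℕ → E → E) (x : ℕ → ℝ → E) (B : ℝ → F →L[ℝ] E) :
    ∃ A : ℕ → ℝ → F →L[ℝ] E, A T = B ∧
      ∀ S < T, ∀ τ, A S τ = fderiv ℝ (Φ S) (x (S + 1) τ) ∘L A (S + 1) τ := by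
  refine ⟨fun S => trp T Φ x B (T - S), by simp [trp], fun S hS τ => ?_⟩
  have e : T - S = T - (S + 1) + 1 := by omega
  simp only [e, trp]
  rw [show T - (T - (S + 1) + 1) = S by omega, show T - (T - (S + 1)) = S + 1 by omega]

/-- the family `(A, 0)` along the product chain -/
theorem Tr.prod {A : ℕ → ℝ → F →L[ℝ] E} (h : Crv k T ν Φ Lf x) (h' : Crv k T ν Φ' Lf' x')
    (hA : Tr k T Φ x A) : ∃ A' : ℕ → ℝ → F →L[ℝ] E × E,
      Tr k T (fun S => Prod.map (Φ S) (Φ' S)) (fun S τ => (x S τ, x' S τ)) A' ∧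
      ∀ S ≤ T, ∀ τ, (∀ i, S < i → i ≤ T → x i τ ∈ ball (0 : E) k.R ∧ x' i τ ∈ ball (0 : E) k.R) →
        ∀ a, A' S τ a = (A S τ a, 0) := by
  set I := ContinuousLinearMap.compL ℝ F E (E × E) (ContinuousLinearMap.inl ℝ E E) with hI
  obtain ⟨A', e1, e2⟩ := exists_tr T (fun S => Prod.map (Φ S) (Φ' S)) (fun S τ => (x S τ, x' S τ))
    fun τ => I (A T τ)
  refine ⟨A', ⟨e2, fun τ hτ => ?_⟩, ?_⟩
  · obtain ⟨a1, a2⟩ := hA.top τ hτ
    rw [e1]
    refine ⟨I.contDiff.contDiffAt.comp τ a1, fun j => le_trans ?_ (a2 j)⟩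
    simp only [iteratedDeriv_eq_iteratedFDeriv]
    have := I.iteratedFDeriv_comp_left a1 (Ext.le_inf j)
    change iteratedFDeriv ℝ j (fun τ => I (A T τ)) τ = _ at this
    rw [this]
    refine ContinuousLinearMap.opNorm_le_bound _ (norm_nonneg _) fun a => ?_
    simpa [hI, Prod.norm_def] using ContinuousLinearMap.le_opNorm _ a
  · have key : ∀ j S, S + j = T → ∀ τ,
        (∀ i, S < i → i ≤ T → x i τ ∈ ball (0 : E) k.R ∧ x' i τ ∈ ball (0 : E) k.R) →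
        ∀ a, A' S τ a = (A S τ a, 0) := by
      intro j
      induction j with
      | zero => intro S hS τ _ a; obtain rfl : S = T := by omega
                rw [e1]; rfl
      | succ j ih =>
        intro S hS τ hb a
        have hS' : S < T := by omega
        rw [e2 S hS', hA.rel S hS', ContinuousLinearMap.comp_apply, ContinuousLinearMap.comp_apply,
          ih (S + 1) (by omega) τ (fun i h1 h2 => hb i (by omega) h2),
          fderiv_map (h.sm S hS') (h'.sm S hS') (ball_prod.2 (hb (S + 1) (by omega) hS')), map_zero]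
    exact fun S hS => key (T - S) S (by omega)

/-- TRANSFER of a first order expansion from time `S + L` back to time `S` -/
theorem Crv.transfer {A : ℕ → ℝ → F →L[ℝ] E} (hk : k.Ok) (h : Crv k T ν Φ Lf x)
    (hA : Tr k T Φ x A) (τ : ℝ) (y : ℕ → E) (a : F) (L S : ℕ) (hS : S + L ≤ T)
    (hy : ∀ i, S ≤ i → i < S + L → y (i + 1) ∈ ball (0 : E) k.R → y i = Φ i (y (i + 1)))
    (hx : ∀ i, S < i → i ≤ S + L → ‖x i τ‖ ≤ k.R / 2)
    (hd : Real.exp (k.Λ * L) * ‖y (S + L) - x (S + L) τ‖ < k.R / 2) :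
    ‖y S - x S τ‖ ≤ Real.exp (k.Λ * L) * ‖y (S + L) - x (S + L) τ‖ ∧
      ‖y S - x S τ - A S τ a‖ ≤ Real.exp (k.Λ * L) * ‖y (S + L) - x (S + L) τ - A (S + L) τ a‖ +
        k.c 2 * L * (Real.exp (k.Λ * L) * ‖y (S + L) - x (S + L) τ‖) ^ 2 := by
  induction L generalizing S with
  | zero => simp
  | succ L ih =>
    have hΛ := hk.Λ
    have e : S + (L + 1) = S + 1 + L := by omega
    rw [e] at hd hy hx hS ⊢
    have e2 : Real.exp (k.Λ * (L + 1 : ℕ)) = Real.exp k.Λ * Real.exp (k.Λ * L) := by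
      rw [← Real.exp_add]; congr 1; push_cast; ring
    have h1 : 1 ≤ Real.exp k.Λ := Real.one_le_exp hΛ.le
    rw [e2, mul_assoc] at hd ⊢
    set D := Real.exp (k.Λ * L) * ‖y (S + 1 + L) - x (S + 1 + L) τ‖ with hD
    have hD0 : 0 ≤ D := by positivity
    have hD1 : D ≤ Real.exp k.Λ * D := le_mul_of_one_le_left hD0 h1
    obtain ⟨a1, a2⟩ := ih (S + 1) hS (fun i h1 h2 => hy i (by omega) h2)
      (fun i h1 h2 => hx i (by omega) h2) (hD1.trans_lt hd)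
    have hS' : S < T := by omega
    have b1 := hx (S + 1) (by omega) (by omega)
    have hR := hk.R
    have hxb : x (S + 1) τ ∈ ball (0 : E) k.R := mem_ball_zero_iff.2 (by linarith)
    have hyb : y (S + 1) ∈ ball (0 : E) k.R := mem_ball_zero_iff.2 (by
      have := norm_add_le (x (S + 1) τ) (y (S + 1) - x (S + 1) τ)
      rw [add_sub_cancel] at this; linarith)
    rw [hy S le_rfl (by omega) hyb, h.rel S hS', hA.rel S hS']
    simp only [Function.comp, ContinuousLinearMap.comp_apply]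
    have c1 := (convex_ball (0 : E) k.R).norm_image_sub_le_of_norm_fderiv_le
      (fun z hz => ((h.sm S hS').contDiffAt (isOpen_ball.mem_nhds hz)).differentiableAt (by simp))
      (h.d1 S hS') hxb hyb
    have c2 := Kn.taylor (h.sm S hS') (fun z hz => h.dj S hS' z hz 2 (by norm_num)) hxb hyb
    have c3 : ∀ w, ‖fderiv ℝ (Φ S) (x (S + 1) τ) w‖ ≤ Real.exp k.Λ * ‖w‖ := fun w =>
      (ContinuousLinearMap.le_opNorm _ _).trans
        (mul_le_mul_of_nonneg_right (h.d1 S hS' _ hxb) (norm_nonneg _))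
    refine ⟨c1.trans (mul_le_mul_of_nonneg_left a1 (by positivity)), ?_⟩
    have e3 : Φ S (y (S + 1)) - Φ S (x (S + 1) τ) - fderiv ℝ (Φ S) (x (S + 1) τ) (A (S + 1) τ a) =
        (Φ S (y (S + 1)) - Φ S (x (S + 1) τ) -
          fderiv ℝ (Φ S) (x (S + 1) τ) (y (S + 1) - x (S + 1) τ)) +
        fderiv ℝ (Φ S) (x (S + 1) τ) (y (S + 1) - x (S + 1) τ - A (S + 1) τ a) := by
      rw [map_sub _ (y (S + 1) - x (S + 1) τ)]; abel
    rw [e3]
    refine (norm_add_le_of_le c2 (c3 _)).trans ?_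
    have hc := hk.c 2
    have d1 : ‖y (S + 1) - x (S + 1) τ‖ * ‖y (S + 1) - x (S + 1) τ‖ ≤ D * D :=
      mul_le_mul a1 a1 (norm_nonneg _) hD0
    have d2 := mul_le_mul_of_nonneg_left d1 (show 0 ≤ k.c 2 by linarith)
    have d3 := mul_le_mul_of_nonneg_left a2 (show 0 ≤ Real.exp k.Λ by linarith)
    have d4 : D * D ≤ (Real.exp k.Λ * D) ^ 2 := by nlinarith
    have d5 : Real.exp k.Λ * D ^ 2 ≤ (Real.exp k.Λ * D) ^ 2 := by nlinarith [sq_nonneg D]
    have d6 := mul_le_mul_of_nonneg_left d4 (show 0 ≤ k.c 2 by linarith)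
    have d7 := mul_le_mul_of_nonneg_left d5 (show 0 ≤ k.c 2 * L by positivity)
    push_cast
    nlinarith

end Crest.Agent.N221.NC
end
private theorem rz_f2b1d47fd7 : type_of% @_root_.Crest.Agent.N221.NC.trp.eq_def := @_root_.Crest.Agent.N221.NC.trp.eq_def -- L119
private theorem rz_6f706217b5 : type_of% @_root_.Crest.Agent.N221.NC.trp.eq_1 := @_root_.Crest.Agent.N221.NC.trp.eq_1 -- L119
end

-- ▼ part N221/Ni/Nd0
section

/-! Row 221, block Ni (helper80): tools for the chain of one node. -/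

set_option autoImplicit false
set_option linter.unusedSectionVars false
set_option linter.unusedVariables false

open Set Filter Topology Metric
open scoped ContDiff RealInnerProductSpace
open Crest.GeometryTopology.Submanifold
open Crest.Agent.R241.DDefs Crest.Agent.R241.D2
open Crest.Agent.R208.J Crest.Agent.R208.L

noncomputable section

namespace Crest.Agent.N221

namespace NdP

/-- jets along a flat curve -/
lemma flat (b d : ℕ → ℝ) : ∃ d' : ℕ → ℝ, ∀ (X V : Type) [NormedAddCommGroup X] [NormedSpace ℝ X]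
    [NormedAddCommGroup V] [NormedSpace ℝ V] (Γ : X → V) (e : ℝ → X) (τ ε : ℝ), 0 ≤ ε →
    ContDiffAt ℝ ∞ Γ (e τ) → (∀ j, ‖iteratedFDeriv ℝ j Γ (e τ)‖ ≤ b j) → ContDiffAt ℝ ∞ e τ →
    (∀ j, 1 ≤ j → ‖iteratedDeriv j e τ‖ ≤ d j * ε ^ j) →
    ∀ j, ‖iteratedDeriv j (fun t => Γ (e t)) τ‖ ≤ d' j * ε ^ j := by
  refine ⟨fun j => j.factorial * (∑ i ∈ Finset.range (j + 1), |b i|) *
    (1 + ∑ i ∈ Finset.range (j + 1), |d i|) ^ j, fun X V _ _ _ _ Γ e τ ε hε h1 h2 h3 h4 j => ?_⟩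
  have k : ∀ (u : ℕ → ℝ), ∀ i ≤ j, u i ≤ ∑ i ∈ Finset.range (j + 1), |u i| := fun u i hi =>
    (le_abs_self _).trans (Finset.single_le_sum (f := fun i => |u i|) (fun _ _ => abs_nonneg _)
      (Finset.mem_range.2 (by omega)))
  have p : 0 ≤ ∑ i ∈ Finset.range (j + 1), |d i| := Finset.sum_nonneg fun _ _ => abs_nonneg _
  rw [← norm_iteratedFDeriv_eq_norm_iteratedDeriv, mul_assoc, ← mul_pow]
  refine G0.comp_at j h1 h3 (fun i hi => (h2 i).trans (k b i hi)) fun i h hi => ?_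
  rw [norm_iteratedFDeriv_eq_norm_iteratedDeriv, mul_pow]
  exact (h4 i h).trans (mul_le_mul_of_nonneg_right (((k d i hi).trans (by linarith)).trans
    (le_self_pow₀ (by linarith) (by omega))) (pow_nonneg hε i))

/-- uniform floor of an injective family -/
lemma floor {X Y Z : Type} [TopologicalSpace X] [NormedAddCommGroup Y] [NormedSpace ℝ Y]
    [FiniteDimensional ℝ Y] [NormedAddCommGroup Z] [NormedSpace ℝ Z] {K : Set X}
    (hK : IsCompact K) {ν : X → Y →L[ℝ] Z} (hν : ContinuousOn ν K)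
    (hi : ∀ x ∈ K, Function.Injective (ν x)) : ∃ c > 0, ∀ x ∈ K, ∀ v, ‖v‖ ≤ c * ‖ν x v‖ := by
  have := FiniteDimensional.proper_real Y
  obtain ⟨μ, μ0, h⟩ := (hK.prod (isCompact_sphere (0 : Y) 1)).exists_forall_le'
    (f := fun p : X × Y => ‖ν p.1 p.2‖) (a := 0)
    ((hν.comp continuousOn_fst fun p hp => hp.1).clm_apply continuousOn_snd).norm
    fun p hp => norm_pos_iff.2 fun e => by
      have := (injective_iff_map_eq_zero _).1 (hi _ hp.1) _ e
      simpa [this] using hp.2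
  refine ⟨μ⁻¹, inv_pos.2 μ0, fun x hx v => ?_⟩
  rcases eq_or_ne v 0 with rfl | hv
  · simp
  have n := norm_pos_iff.2 hv
  have := h (x, ‖v‖⁻¹ • v) ⟨hx, by simp [norm_smul, n.ne']⟩
  simp only [map_smul, norm_smul, norm_inv, norm_norm] at this
  rw [le_inv_mul_iff₀ n] at this
  rw [le_inv_mul_iff₀ μ0]
  linarith

lemma exists_x {E : Type} (T : ℕ) (Φ : ℕ → E → E) (B : ℝ → E) :
    ∃ x : ℕ → ℝ → E, x T = B ∧ ∀ j < T, x j = Φ j ∘ x (j + 1) := by
  refine ⟨fun j => Nat.rec (motive := fun _ => ℝ → E) B (fun i r => Φ (T - (i + 1)) ∘ r) (T - j),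
    by simp, fun j hj => ?_⟩
  have e : T - j = T - (j + 1) + 1 := by omega
  simp only [e]
  rw [show T - (T - (j + 1) + 1) = j by omega]

lemma dist_le {X : Type} [NormedAddCommGroup X] [NormedSpace ℝ X] {e : ℝ → X} {M : ℝ}
    (h : ∀ τ ∈ Icc (0 : ℝ) 1, ContDiffAt ℝ ∞ e τ ∧ ‖iteratedDeriv 1 e τ‖ ≤ M) {τ : ℝ}
    (hτ : τ ∈ Icc (0 : ℝ) 1) : ‖e τ - e 0‖ ≤ M := by
  have h0 : (0 : ℝ) ∈ Icc (0 : ℝ) 1 := ⟨le_rfl, zero_le_one⟩
  have := (convex_Icc (0 : ℝ) 1).norm_image_sub_le_of_norm_deriv_le (f := e) (C := M)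
    (fun t ht => (h t ht).1.differentiableAt (by simp))
    (fun t ht => by simpa using (h t ht).2) h0 hτ
  rw [sub_zero, Real.norm_of_nonneg hτ.1] at this
  exact this.trans (mul_le_of_le_one_right ((norm_nonneg _).trans (h 0 h0).2) hτ.2)

lemma contDiff_lif (m : ℕ) : ContDiff ℝ ∞ (lif : ZZ m → ZZ m →L[ℝ] ZL m) :=
  contDiff_clm_apply_iff.2 fun v => contDiff_const.prodMk
    (contDiff_snd.inner ℝ (contDiff_const (c := v.1))).neg

lemma le_lif {m : ℕ} (z v : ZZ m) : ‖v‖ ≤ ‖lif z v‖ := norm_fst_le (lif z v)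

end NdP

namespace Cov

variable {n N m : ℕ} {a : ℝ} {S : Set (Euc N)} {G : Geo n N (-(a ^ 2)) S} (C : Cov G)

lemma exists_chain (hm : m + 1 = n) {p : Euc n × Euc N} (hp : C.Un p.1 p.2) (L : ℝ) :
    ∃ F : ℕ → FF n N m, (∀ j, C.Frm (F j)) ∧ (∀ j, F (j + 1) = C.fw (F j) L) ∧
      ∀ j : ℕ, bv (F j) = C.fu (j * L) p := by
  obtain ⟨f, hf, e⟩ := C.exists_bv hm hp
  refine ⟨fun j => Nat.rec f (fun _ f => C.fw f L) j, fun j => ?_, fun j => rfl, fun j => ?_⟩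
  · induction j with
    | zero => exact hf
    | succ j ih => exact Frm.fw C ih L
  · induction j with
    | zero => simpa [C.fu_zero] using e
    | succ j ih =>
      refine (C.bv_fw _ L).trans ?_
      rw [ih, C.fu_add hp, Nat.cast_succ, add_mul, one_mul]

variable (H : Hyp n N a S) (hm : m + 1 = n)
include H hm

/-- uniform balls round a point that is mapped to the centre -/
lemma nd_loc (R : ℝ) {ρ : ℝ} (hρ : ρ < C.rr m) : ∃ r > 0, ∀ (f f' : FF n N m) (y : ZL m) (s : ℝ),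
    C.Frm f → C.Frm f' → ‖y.1‖ ≤ ρ → |y.2| ≤ 1 → |s| ≤ R → bv f' = C.fu s (C.Ps f y) →
    C.Lt f f' s y = 0 ∧ C.dd f.1 f'.1 ≤ R + 3 ∧
      ∀ y' ∈ ball y r, y'.1 ∈ C.dm f f' ∧ |y'.2| < R + 3 := by
  obtain ⟨r, r0, h⟩ := C.dm_ball0 H hm (R + 3) hρ
  refine ⟨min r 1, by positivity, fun f f' y s hf hf' h1 h2 h3 e => ?_⟩
  obtain ⟨k1, k2⟩ := C.loc H hm (y' := 0) hf hf' (h1.trans_lt hρ) (by simpa using C.rr_pos H hm)
    (by rw [C.Ps_zero H hf', e])
  have k3 : C.Tf f f' y.1 = 0 := congrArg Prod.fst k2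
  have k4 : y.2 - C.tm f f' y.1 + s = 0 := congrArg Prod.snd k2
  have k5 := abs_le.1 (C.dd_tm H hm hf hf' k1)
  rw [k3, Prod.fst_zero, norm_zero] at k5
  have k6 : |C.tm f f' y.1| ≤ 1 + R := by
    rw [show C.tm f f' y.1 = y.2 + s by linarith]
    exact (abs_add_le _ _).trans (add_le_add h2 h3)
  have k7 : C.dd f.1 f'.1 ≤ R + 3 := by linarith [norm_fst_le y.1, (C.rad H hm).le]
  refine ⟨k2, k7, fun y' hy' => ⟨h f f' y.1 hf hf' k7 k1 h1 (by
    rw [k3, norm_zero]; exact (norm_nonneg _).trans h1) ?_, ?_⟩⟩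
  · exact (le_max_left _ _).trans_lt ((mem_ball.1 hy').trans_le (min_le_left _ _))
  · have : |y'.2 - y.2| < 1 := (le_max_right _ _).trans_lt ((mem_ball.1 hy').trans_le (min_le_right _ _))
    linarith [abs_sub_abs_le_abs_sub y'.2 y.2, abs_nonneg s]

/-- the backward chain is the flow -/
lemma nd_inv {l T : ℕ} {L Λ K0 R0 δ t : ℝ} {c0 : ℕ → ℝ} (hC : C.Chn m L Λ K0 R0 δ c0)
    {F : ℕ → FF n N m} (frm : ∀ j, C.Frm (F j)) (fw : ∀ j, F (j + 1) = C.fw (F j) L)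
    {f : FF n N m} (hf : C.Frm f) {x : ℕ → ZL m} {A : ℕ → (Fin l → ℝ) →L[ℝ] ZL m} {y : ZL m}
    {B : (Fin l → ℝ) →L[ℝ] ZL m} (hx : ∀ j < T, x j = C.Lt (F (j + 1)) (F j) (-L) (x (j + 1)))
    (hA : ∀ j < T, A j = fderiv ℝ (C.Lt (F (j + 1)) (F j) (-L)) (x (j + 1)) ∘L A (j + 1))
    (h1 : y.1 ∈ C.dm f (F T)) (h2 : x T = C.Lt f (F T) (T * L - t) y)
    (h3 : A T = fderiv ℝ (C.Lt f (F T) (T * L - t)) y ∘L B) (j : ℕ) (hj : j ≤ T)
    (hb : ∀ i, j < i → i ≤ T → x i ∈ ball (0 : ZL m) R0) :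
    y.1 ∈ C.dm f (F j) ∧ x j = C.Lt f (F j) (j * L - t) y ∧
      ∀ b, A j b = fderiv ℝ (C.Lt f (F j) (j * L - t)) y (B b) := by
  induction hj using Nat.decreasingInduction with
  | self => exact ⟨h1, h2, fun b => by rw [h3]; rfl⟩
  | of_succ j hj ih =>
    obtain ⟨i1, i2, i3⟩ := ih fun i a b => hb i (by omega) b
    have d := ((hC _ (frm j)).1 _ (hb (j + 1) (by omega) hj)).1
    rw [← fw, i2] at d
    have e : ((j + 1 : ℕ) : ℝ) * L - t + -L = j * L - t := by push_cast; ring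
    obtain ⟨k1, k2⟩ := C.Lt_comp H hm (t' := -L) (frm (j + 1)) (frm j) i1 d
    refine ⟨k1, by rw [hx j hj, i2, k2, e], fun b => ?_⟩
    rw [hA j hj, ContinuousLinearMap.comp_apply, i3, i2,
      C.fderiv_Lt_comp H hm hf (frm (j + 1)) (frm j) i1 d, e]

end Cov

end Crest.Agent.N221
end
end

-- ▼ part N221/Ni/Nd
section

/-! Row 221, block Ni (helper80): the chain of one node, `ndS`. -/

set_option autoImplicit false
set_option linter.unusedSectionVars false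
set_option linter.unusedVariables false

open Set Filter Topology Metric
open scoped ContDiff RealInnerProductSpace
open Crest.GeometryTopology.Submanifold
open Crest.Agent.R241.DDefs Crest.Agent.R241.D2
open Crest.Agent.R208.J Crest.Agent.R208.L

noncomputable section

namespace Crest.Agent.N221

open Cov Ex NdP

/-- true coordinates of the known part -/
lemma nd_known (hF : FlS) (hP : PsS) {n N m : ℕ} {a : ℝ} {S : Set (Euc N)}
    {G : Geo n N (-(a ^ 2)) S} (C : Cov G) (H : Hyp n N a S) (hm : m + 1 = n) {μ : ℝ}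
    (hμ : 0 < μ) : ∃ ρ > 0, ∀ (f f' : FF n N m) (y y' : ZL m) (s : ℝ), C.Frm f → C.Frm f' →
      ‖y.1‖ < C.rr m → ‖y'.1‖ < C.rr m → |y.2| ≤ 1 → |y'.2| ≤ 1 → ‖y - y'‖ ≤ ρ → 0 ≤ s →
      C.Sss (C.Ps f y) (C.Ps f y') → bv f' = C.fu s (C.Ps f y) →
      ∃ w : ZL m, ‖w‖ ≤ μ * Real.exp (-(a * s)) ∧ C.Ps f' w = C.fu s (C.Ps f y') := by
  obtain ⟨KF, ΛF, KF1, -, hF⟩ := hF n N a S G C H
  obtain ⟨KP, δ, KP1, δ0, hP⟩ := hP n N m a S G C H hm
  have p : 0 < min μ (min 1 δ) := by positivity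
  have M0 : 0 < KP * KF * KP := by positivity
  refine ⟨min μ (min 1 δ) / (KP * KF * KP), by positivity,
    fun f f' y y' s hf hf' h1 h2 h3 h4 h5 s0 hs e => ?_⟩
  have u := C.un_Ps' H hm hf h1
  have u' := C.un_Ps' H hm hf h2
  rw [le_div_iff₀ M0] at h5
  have n0 := norm_nonneg (y - y')
  have a1 := (hP f hf).1 y y' h1.le h2.le h3 h4
  have a0 : KP * ‖y - y'‖ ≤ KF * (KP * ‖y - y'‖) := le_mul_of_one_le_left (by positivity) KF1
  have a0' : KF * (KP * ‖y - y'‖) ≤ KP * (KF * (KP * ‖y - y'‖)) :=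
    le_mul_of_one_le_left (by positivity) KP1
  have m1 := min_le_left μ (min 1 δ)
  have m2 := (min_le_right μ (min 1 δ)).trans (min_le_left _ _)
  have m3 := (min_le_right μ (min 1 δ)).trans (min_le_right _ _)
  have a2 := (hF _ _ u u').2.1 hs (by linarith) s s0
  have e0 := Real.exp_pos (-(a * s))
  have e1 : Real.exp (-(a * s)) ≤ 1 := Real.exp_le_one_iff.2 (by nlinarith [H.a_pos])
  have a3 : C.du (bv f') (C.fu s (C.Ps f y')) ≤ KF * (KP * ‖y - y'‖) * Real.exp (-(a * s)) := by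
    rw [e]
    exact a2.trans ((mul_le_mul_of_nonneg_left a1 (by positivity)).trans_eq (by ring))
  obtain ⟨w, w1, w2⟩ := (hP f' hf').2 _ (C.un_fu u' s)
    (a3.trans ((mul_le_of_le_one_right (by positivity) e1).trans (by linarith)))
  refine ⟨w, w1.trans ((mul_le_mul_of_nonneg_left a3 (by positivity)).trans ?_), w2⟩
  rw [← mul_assoc]
  exact mul_le_mul_of_nonneg_right (by linarith) e0.le

set_option maxHeartbeats 2000000 in
theorem ndS (hF : FlS) (hP : PsS) : NdS := by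
  intro n N m a S G C f z0 H hm hf hz0 L Λ K0 R0 δ R ε c0 hL hC Rp RR εp
  have ha := H.a_pos
  obtain ⟨ρ', q1, q2⟩ := exists_between hz0
  obtain ⟨r0, r00, hr0⟩ := C.nd_loc H hm 0 q2
  obtain ⟨K1, K11, hK1⟩ := (C.ub_Lt H hm (m := m) (0 + 3)).taylor
  obtain ⟨ρ1, ρ10, hk⟩ := nd_known hF hP C H hm (μ := min ε (min (R / 2) 1)) (by positivity)
  obtain ⟨ρ, ρ0, ρ1', ρ2, ρ3, ρ4⟩ : ∃ ρ : ℝ, 0 < ρ ∧ ρ ≤ 1 ∧ ρ ≤ ρ' - ‖z0‖ ∧ ρ ≤ r0 / 4 ∧
      ρ ≤ ρ1 / 2 := ⟨min (min 1 (ρ' - ‖z0‖)) (min (r0 / 4) (ρ1 / 2)),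
    lt_min (lt_min one_pos (by linarith)) (by positivity), (min_le_left _ _).trans (min_le_left _ _),
    (min_le_left _ _).trans (min_le_right _ _), (min_le_right _ _).trans (min_le_left _ _),
    (min_le_right _ _).trans (min_le_right _ _)⟩
  refine ⟨ρ, K1, ρ0, ρ1', by linarith, K11,
    fun l nu U r hr hU hsub hnu hinj hE heq g K d g0 => ?_⟩
  have h0 : (0 : ℝ) ∈ Icc (0 : ℝ) 1 := ⟨le_rfl, zero_le_one⟩
  rcases lt_or_ge r 0 with r0' | r0'
  · exact ⟨0, 0, 0, fun _ _ _ _ _ _ _ _ _ _ _ _ _ _ _ _ _ _ _ _ hc =>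
      absurd (hc 0 h0).2.2.1 (by simp [closedBall_eq_empty.2 r0'])⟩
  obtain ⟨δ', δ0, hδ⟩ := (isCompact_closedBall z0 r).exists_cthickening_subset_open hU hsub
  rw [cthickening_closedBall δ0.le r0'] at hδ
  have box : ∀ y ∈ closedBall ((z0, 0) : ZL m) r,
      y.1 ∈ closedBall z0 r ∧ ‖y.1‖ ≤ ρ' ∧ |y.2| ≤ 1 := fun y hy => by
    have h1 : dist y.1 z0 ≤ r := (le_max_left _ _).trans (mem_closedBall.1 hy)
    have h2 : dist y.2 0 ≤ r := (le_max_right _ _).trans (mem_closedBall.1 hy)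
    rw [Real.dist_0_eq_abs] at h2
    exact ⟨h1, by linarith [norm_le_norm_add_norm_sub' y.1 z0, dist_eq_norm y.1 z0], by linarith⟩
  have box2 : ∀ y ∈ closedBall ((z0, 0) : ZL m) r, ∀ y' ∈ closedBall ((z0, 0) : ZL m) r,
      ‖y - y'‖ ≤ 2 * ρ := fun y hy y' hy' => by
    rw [← dist_eq_norm]
    linarith [dist_triangle_right y y' (z0, 0), mem_closedBall.1 hy, mem_closedBall.1 hy']
  obtain ⟨r1, r10, hr1⟩ := C.nd_loc H hm (L + |K|) q2
  have u := C.ub_Lt H hm (m := m) (L + |K| + 3)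
  have ho := fun p => (u.op p).inter (isOpen_ball (x := ((z0, 0) : ZL m)) (ε := δ' + r))
  have u2 := UB.of_compact (f := fun y : ZL m => lif y.1 ∘L nu y.1) (hU.preimage continuous_fst)
    (((contDiff_lif m).comp contDiff_fst).contDiffOn.clm_comp
      (hnu.comp contDiffOn_fst fun y hy => hy))
    (isCompact_closedBall ((z0, 0) : ZL m) (δ' + r))
    (fun y hy => hδ ((le_max_left _ _).trans (mem_closedBall.1 hy))) ho
    fun _ => inter_subset_right.trans ball_subset_closedBall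
  have u3 := (u.mono id ho fun _ => inter_subset_left).fderiv.clm_comp u2
  obtain ⟨b, -, hb⟩ := u.bds
  obtain ⟨bA, -, hbA⟩ := u3.bds
  obtain ⟨cT, cT1, hcT⟩ := u.taylor
  obtain ⟨dx, hdx⟩ := flat b d
  obtain ⟨dA, hdA⟩ := flat bA d
  obtain ⟨cn, cn0, hcn⟩ := NdP.floor (isCompact_closedBall z0 r) (hnu.continuousOn.mono hsub)
    fun z hz => hinj z (hsub hz)
  obtain ⟨T0, hT0⟩ : ∃ T0 : ℝ, ∀ T, T0 ≤ T → 0 ≤ T ∧
      cT * (|d 1| * Real.exp (-(g * T))) < min r1 1 := by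
    have t1 : Tendsto (fun T : ℝ => cT * (|d 1| * Real.exp (-(g * T)))) atTop
        (𝓝 (cT * (|d 1| * 0))) := ((Real.tendsto_exp_neg_atTop_nhds_zero.comp
      (tendsto_id.const_mul_atTop g0)).const_mul _).const_mul _
    exact eventually_atTop.1 ((eventually_ge_atTop 0).and
      (t1.eventually (gt_mem_nhds (by simpa using r10))))
  refine ⟨|K0| + cT * |d 1| + cn * cT + 1, T0, fun j => |dx j| + |dA j|,
    fun k kR kΛ kχ kχ' kK kg kc kd kα kτ T hT γ t c e z hγ ht hc hz τ0 => ?_⟩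
  obtain ⟨T0', sm⟩ := hT0 T hT
  have L0 : 0 < L := by linarith
  have f1 := (le_div_iff₀ L0).1 (Nat.floor_le (div_nonneg T0' L0.le))
  have f2 := (div_lt_iff₀ L0).1 (Nat.lt_floor_add_one (T / L))
  generalize ⌊T / L⌋₊ = T' at f1 f2 ⊢
  have p1 := abs_nonneg K0
  have p2 : 0 ≤ cT * |d 1| := by positivity
  have p3 : 0 ≤ cn * cT := by positivity
  have s1 : |T' * L - t| ≤ L + |K| := by
    have := abs_le.1 (ht.trans (le_abs_self K))
    exact abs_le.2 ⟨by linarith, by linarith⟩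
  have E0 := Real.exp_pos (-(g * T))
  have E1 : Real.exp (-(g * T)) ≤ Real.exp (-(k.g * T')) := Real.exp_le_exp.2 (by
    nlinarith [mul_le_mul_of_nonneg_right kg (Nat.cast_nonneg (α := ℝ) T')])
  obtain ⟨γ', hγ', i1, -⟩ := hγ.inv C
  have hf' := hf.fg C hγ'
  obtain ⟨F, frm, fw, hbv⟩ := C.exists_chain hm (hc 0 h0).1 L
  have en : ∀ τ ∈ Icc (0 : ℝ) 1, ‖(e τ).1‖ < C.rr m := fun τ hτ =>
    (box _ (hc τ hτ).2.2.1).2.1.trans_lt q2
  have ps : ∀ τ ∈ Icc (0 : ℝ) 1, C.Ps (fg γ' f) (e τ) = C.fu t (c τ) := fun τ hτ => by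
    rw [C.Ps_fg H hf hγ' (C.Dm_lt H hm hf (en τ hτ)), ← (hc τ hτ).2.2.2.1, mv_eq, dg_inv i1]
  obtain ⟨t1, t2, t3⟩ := hr1 _ _ (e 0) _ hf' (frm T') (box _ (hc 0 h0).2.2.1).2.1
    (box _ (hc 0 h0).2.2.1).2.2 s1 (by rw [hbv, ps 0 h0, C.fu_add (hc 0 h0).1, add_sub_cancel])
  let p : C.Ix m (L + |K| + 3) := ⟨((fg γ' f, F T'), T' * L - t), ⟨hf', frm T', t2⟩, by linarith⟩
  let p' : C.Ix m (L + |K| + 3) := ⟨((F T', fg γ' f), -(T' * L - t)),
    ⟨frm T', hf', (C.dd_comm _ _).trans_le t2⟩, by rw [abs_neg]; linarith⟩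
  have ed : ∀ τ ∈ Icc (0 : ℝ) 1, ‖e τ - e 0‖ ≤ |d 1| * Real.exp (-(g * T)) := fun τ =>
    dist_le fun τ hτ => ⟨(hc τ hτ).2.2.2.2.1, ((hc τ hτ).2.2.2.2.2 1 le_rfl).trans (by
      rw [pow_one]; exact mul_le_mul_of_nonneg_right (le_abs_self _) E0.le)⟩
  have eb : ∀ τ ∈ Icc (0 : ℝ) 1, e τ ∈ ball (e 0) r1 := fun τ hτ => mem_ball_iff_norm.2
    (((ed τ hτ).trans (le_mul_of_one_le_left (by positivity) cT1)).trans_lt
      (sm.trans_le (min_le_left _ _)))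
  have xn : ∀ τ ∈ Icc (0 : ℝ) 1, ‖C.Lt (fg γ' f) (F T') (T' * L - t) (e τ)‖ ≤
      cT * (|d 1| * Real.exp (-(g * T))) := fun τ hτ => by
    have := ((hcT p).2 _ (convex_ball _ _) t3 _ (mem_ball_self r10) _ (eb τ hτ)).1
    rw [show C.Lt p.1.1.1 p.1.1.2 p.1.2 (e 0) = 0 from t1, sub_zero] at this
    exact this.trans (mul_le_mul_of_nonneg_left (ed τ hτ) (by positivity))
  obtain ⟨x, xT, hx⟩ := exists_x T' (fun j => C.Lt (F (j + 1)) (F j) (-L))
    fun τ => C.Lt (fg γ' f) (F T') (T' * L - t) (e τ)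
  obtain ⟨A, AT, hA⟩ := NC.exists_tr T' (fun j => C.Lt (F (j + 1)) (F j) (-L)) x
    fun τ => fderiv ℝ (C.Lt (fg γ' f) (F T') (T' * L - t)) (e τ) ∘L (lif (e τ).1 ∘L nu (e τ).1)
  have inv := fun τ (hτ : τ ∈ Icc (0 : ℝ) 1) j hj
      (hb : ∀ i, j < i → i ≤ T' → x i τ ∈ ball (0 : ZL m) k.R) =>
    C.nd_inv H hm hC frm fw hf' (x := fun j => x j τ) (A := fun j => A j τ)
      (fun j hj => congrFun (hx j hj) τ) (fun j hj => hA j hj τ) (t3 _ (eb τ hτ)).1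
      (congrFun xT τ) (congrFun AT τ) j hj fun i a b => ball_subset_ball (kR.trans_le RR) (hb i a b)
  have tru : ∀ τ ∈ Icc (0 : ℝ) 1, ∀ j ≤ T',
      (∀ i, j < i → i ≤ T' → x i τ ∈ ball (0 : ZL m) k.R) →
      ‖(x j τ).1‖ < C.rr m ∧ C.Ps (F j) (x j τ) = C.fu (j * L) (c τ) ∧
        ∀ b, C.Euu (F j) (x j τ) (A j τ b) := fun τ hτ j hj hb => by
    obtain ⟨k1, k2, k3⟩ := inv τ hτ j hj hb
    refine ⟨by rw [k2]; exact C.norm_Lt H hm (frm j) k1 _, by
      rw [k2, C.Ps_Lt H hm hf' (frm j) k1, ps τ hτ, C.fu_add (hc τ hτ).1, add_sub_cancel],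
      fun b => ?_⟩
    rw [k2, k3]
    refine Euu.map C H hm hf' (frm j) k1 ⟨(nu (e τ).1 b).1, ?_⟩ _
    rw [C.Su_fg H hf hγ' (C.Dm_lt H hm hf (en τ hτ))]
    exact congrArg (lif (e τ).1)
      (Prod.ext rfl (PD.mem_E.1 (hE _ (hsub (box _ (hc τ hτ).2.2.1).1) b)))
  have sub : ∀ τ ∈ Icc (0 : ℝ) k.τ0, τ ∈ Icc (0 : ℝ) 1 := fun τ hτ => ⟨hτ.1, hτ.2.trans kτ⟩
  have h0' : (0 : ℝ) ∈ Icc (0 : ℝ) k.τ0 := ⟨le_rfl, τ0⟩
  have zn : ∀ τ ∈ Icc (0 : ℝ) k.τ0, ‖(z τ).1‖ < C.rr m := fun τ hτ =>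
    (box _ (hz τ hτ).1).2.1.trans_lt q2
  have e1 : ∀ j : ℕ, Real.exp (-(a * (j * L))) ≤ 1 := fun j =>
    Real.exp_le_one_iff.2 (neg_nonpos.2 (by positivity))
  have m0 : 0 < min ε (min (R / 2) 1) := by positivity
  have bl : ∀ (j : ℕ) (w : ZL m), ‖w‖ ≤ min ε (min (R / 2) 1) * Real.exp (-(a * (j * L))) →
      w ∈ ball (0 : ZL m) k.R := fun j w hw => mem_ball_zero_iff.2 (by
    linarith [mul_le_of_le_one_right m0.le (e1 j),
      (min_le_right ε (min (R / 2) 1)).trans (min_le_left _ _)])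
  have kn : ∀ τ ∈ Icc (0 : ℝ) k.τ0, ∀ j ≤ T', ∀ i, j ≤ i → i ≤ T' →
      ‖x i τ‖ ≤ min ε (min (R / 2) 1) * Real.exp (-(a * (i * L))) := fun τ hτ j hj => by
    have key : ∀ j ≤ T', (∀ i, j < i → i ≤ T' → x i τ ∈ ball (0 : ZL m) k.R) →
        ‖x j τ‖ ≤ min ε (min (R / 2) 1) * Real.exp (-(a * (j * L))) := fun j hj hb => by
      obtain ⟨k1, k2, -⟩ := tru τ (sub τ hτ) j hj hb
      obtain ⟨w, w1, w2⟩ := hk f (F j) (z 0) (z τ) (j * L) hf (frm j) (zn 0 h0') (zn τ hτ)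
        (box _ (hz 0 h0').1).2.2 (box _ (hz τ hτ).1).2.2
        ((box2 _ (hz 0 h0').1 _ (hz τ hτ).1).trans (by linarith)) (by positivity)
        (by rw [← (hz 0 h0').2, ← (hz τ hτ).2]; exact (hc τ (sub τ hτ)).2.1)
        (by rw [← (hz 0 h0').2, hbv])
      rwa [C.Ps_inj H hm (frm j) k1
        ((hC _ (frm j)).1 w (ball_subset_ball (kR.trans_le RR) (bl j w w1))).1.1
        (by rw [k2, w2, (hz τ hτ).2])]
    induction hj using Nat.decreasingInduction with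
    | self => exact fun i a b => key i b fun i' a' b' => by omega
    | of_succ j hj ih =>
      intro i a b
      rcases a.eq_or_lt with rfl | a
      · exact key _ b fun i' a' b' => bl i' _ (ih i' a' b')
      · exact ih i a b
  have kn' := fun τ hτ j hj => kn τ hτ 0 T'.zero_le j j.zero_le hj
  have ch := fun j y (hy : y ∈ ball (0 : ZL m) k.R) =>
    (hC _ (frm j)).1 y (ball_subset_ball (kR.trans_le RR) hy)
  simp only [← fw] at ch
  have EΛ := Real.exp_le_exp.2 kΛ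
  have jet : ∀ (u : ℕ → ℝ) (j : ℕ), |u j| ≤ k.d j → ∀ w : ℝ, w ≤ u j * Real.exp (-(g * T)) ^ j →
      w ≤ k.d j * Real.exp (-(k.g * T')) ^ j := fun u j h w hw => hw.trans
    (mul_le_mul ((le_abs_self _).trans h) (pow_le_pow_left₀ E0.le E1 j) (by positivity)
      ((abs_nonneg _).trans h))
  obtain ⟨g1, g2, g3⟩ := hr0 f (F 0) (z 0) 0 hf (frm 0) (box _ (hz 0 h0').1).2.1
    (box _ (hz 0 h0').1).2.2 (by simp) (by rw [hbv, ← (hz 0 h0').2]; simp)
  have g4 : closedBall ((z0, 0) : ZL m) r ⊆ ball (z 0) r0 := fun y hy =>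
    mem_ball_iff_norm.2 ((box2 _ hy _ (hz 0 h0').1).trans_lt (by linarith))
  let p0 : C.Ix m (0 + 3) := ⟨((f, F 0), 0), ⟨hf, frm 0, g2⟩, by simp⟩
  refine ⟨F, x, A, frm, fw, hbv, ⟨fun j _ y hy => (ch j y hy).2.1.contDiffWithinAt,
    fun j _ => by rw [fw]; exact (hC _ (frm j)).2.1, fun j _ y hy => (ch j y hy).2.2.1.trans EΛ,
    fun j _ y hy i hi => ((ch j y hy).2.2.2.1 i hi).trans (kc i),
    fun j _ y hy v => ((ch j y hy).2.2.2.2.1 v).trans
      (mul_le_mul_of_nonneg_right EΛ (norm_nonneg _)), fun j _ y h hy => ?_,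
    fun j _ y h hy => ((ch j y hy).2.2.2.2.2.2 h).trans
      (mul_le_mul_of_nonneg_right (by linarith [le_abs_self K0]) (norm_nonneg _)),
    fun y => (norm_fst_le y.1).trans (norm_fst_le y), hx, fun τ hτ => ?_, fun τ hτ j hj => ?_⟩,
    ⟨⟨hA, fun τ hτ => ?_⟩, fun τ hτ b => ?_⟩, tru, fun τ hτ j hj => (kn' τ hτ j hj).trans
      ((mul_le_of_le_one_right m0.le (e1 j)).trans (min_le_left _ _)), fun τ hτ => ?_,
    fun y hy => ⟨(g3 y (g4 hy)).1, ((hK1 p0).1 y (g3 y (g4 hy))).2, fun y' hy' =>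
      ⟨((hK1 p0).2 _ (convex_ball _ _) g3 _ (g4 hy) _ (g4 hy')).1,
        ((hK1 p0).2 _ (convex_ball _ _) g3 _ (g4 hy) _ (g4 hy')).2.2⟩⟩⟩
  · obtain ⟨k1, k2⟩ := (ch j y hy).2.2.2.2.2.1 h
    have : 1 / 2 ≤ Real.exp (-k.χ) := by
      rw [one_div, ← Real.exp_log two_pos, ← Real.exp_neg]
      exact Real.exp_le_exp.2 (neg_le_neg kχ)
    exact ⟨k1, by nlinarith [norm_nonneg y.1.1]⟩
  · obtain ⟨k1, k2, -⟩ := tru τ hτ T' le_rfl fun i a b => by omega
    have a1 := u.at (i := p) (t3 _ (eb τ hτ))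
    refine ⟨by rw [xT]; exact a1.comp τ (hc τ hτ).2.2.2.2.1, ⟨k1, ?_⟩, ?_, fun j hj => ?_⟩
    · rw [hbv, k2]
      exact (hc τ hτ).2.1.fu ha (hc 0 h0).1 (hc τ hτ).1 _
    · rw [xT]
      refine (xn τ hτ).trans ?_
      rw [← mul_assoc]
      exact mul_le_mul (by linarith) E1 E0.le (by linarith)
    · rw [xT]
      exact jet dx j ((le_add_of_nonneg_right (abs_nonneg _)).trans (kd j)) _
        (hdx _ _ _ e τ _ E0.le a1 (fun j => hb j p _ (t3 _ (eb τ hτ))) (hc τ hτ).2.2.2.2.1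
          (hc τ hτ).2.2.2.2.2 j)
  · refine ⟨bl j _ (kn' τ hτ j hj), (kn' τ hτ j hj).trans (mul_le_mul
      (((min_le_right _ _).trans (min_le_right _ _)).trans (by linarith))
      (Real.exp_le_exp.2 ?_) (Real.exp_pos _).le (by linarith))⟩
    nlinarith [mul_le_mul_of_nonneg_right kχ' (Nat.cast_nonneg (α := ℝ) j)]
  · have m1 : e τ ∈ ball ((z0, 0) : ZL m) (δ' + r) :=
      closedBall_subset_ball (by linarith) (hc τ hτ).2.2.1
    have a1 := u3.at (i := p) ⟨t3 _ (eb τ hτ), m1⟩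
    rw [AT]
    refine ⟨a1.comp τ (hc τ hτ).2.2.2.2.1, fun j => ?_⟩
    have a2 := (le_add_of_nonneg_left (abs_nonneg _)).trans (kd j)
    refine (jet dA j a2 _ (hdA _ _ _ e τ _ E0.le a1 (fun j => hbA j p _ ⟨t3 _ (eb τ hτ), m1⟩)
      (hc τ hτ).2.2.2.2.1 (hc τ hτ).2.2.2.2.2 j)).trans (mul_le_mul_of_nonneg_right
        (le_mul_of_one_le_right ((abs_nonneg _).trans a2) (Real.one_le_exp (by positivity)))
        (by positivity))
  · have d1 := (t3 _ (eb τ hτ)).1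
    have a1 := ((hcT p').1 (C.Lt (fg γ' f) (F T') (T' * L - t) (e τ))
      ⟨(C.Lt_symm H hm hf' (frm T') d1).1, ((norm_snd_le _).trans (xn τ hτ)).trans_lt
        (sm.trans_le ((min_le_right _ _).trans (by linarith [abs_nonneg K])))⟩).2
    have a2 := (ContinuousLinearMap.le_opNorm _ _).trans
      (mul_le_mul_of_nonneg_right a1 (norm_nonneg (A T' τ b)))
    rw [AT] at a2 ⊢
    erw [C.fderiv_Lt_symm H hm hf' (frm T') d1] at a2
    refine (hcn _ (box _ (hc τ hτ).2.2.1).1 b).trans ((mul_le_mul_of_nonneg_left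
      ((le_lif _ _).trans a2) cn0.le).trans ?_)
    rw [← mul_assoc]
    exact mul_le_mul_of_nonneg_right (by linarith) (norm_nonneg _)
  · have hτ' := sub τ hτ
    obtain ⟨k1, k2, k3⟩ := inv τ hτ' 0 T'.zero_le fun i _ b => bl i _ (kn' τ hτ i b)
    obtain ⟨l1, l2⟩ := C.loc H hm hf hf' (zn τ hτ) (en τ hτ') (by rw [ps τ hτ', (hz τ hτ).2])
    have l3 : C.Tf f (fg γ' f) (z τ).1 = (e τ).1 := congrArg Prod.fst l2
    have e0 : t + ((0 : ℕ) * L - t) = 0 := by simp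
    rw [← l2] at k1
    refine ⟨by rw [k2, ← l2, (C.Lt_comp H hm hf' (frm 0) l1 k1).2, e0], fun b => ?_⟩
    obtain ⟨b', hb'⟩ := heq _ (hsub (box _ (hz τ hτ).1).1) _ (C.R_Tf hγ' l1)
      (by rw [l3]; exact hsub (box _ (hc τ hτ').2.2.1).1) b
    refine ⟨b', ?_⟩
    rw [k3, ← e0, ← C.fderiv_Lt_comp H hm hf hf' (frm 0) l1 k1, C.fderiv_Lt_lif H hm hf hf' l1, hb',
      l2, l3]
    rfl

end Crest.Agent.N221
end
end

-- ▼ part N221/Ni/Lk
section

/-! Row 221, block Ni (helper86): `lkS`, two neighbouring nodes of the polygon. -/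

set_option autoImplicit false

open Set Filter Topology Metric
open scoped ContDiff RealInnerProductSpace
open Crest.GeometryTopology.Submanifold
open Crest.Agent.R241.DDefs Crest.Agent.R241.D2
open Crest.Agent.R208.J Crest.Agent.R208.L

noncomputable section

namespace Crest.Agent.N221

namespace Cov

variable {n N m : ℕ} {a : ℝ} {S : Set (Euc N)} {G : Geo n N (-(a ^ 2)) S} (C : Cov G)
variable (H : Hyp n N a S) (hm : m + 1 = n)
include H hm

/-- the change of chart between close frames keeps small points small -/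
lemma near_Lt : ∃ K δ : ℝ, 0 < K ∧ 0 < δ ∧ ∀ (f f' : FF n N m) (y : ZL m) (ε : ℝ), C.Frm f →
    C.Frm f' → ε ≤ δ → C.du (bv f) (bv f') ≤ ε → ‖y‖ ≤ ε → ‖C.Lt f' f 0 y‖ ≤ K * ε := by
  obtain ⟨K, δ, hK, hδ, h⟩ := C.step H hm 0
  refine ⟨K + 1, δ, by positivity, hδ, fun f f' y ε hf hf' he hd hy => ?_⟩
  obtain ⟨-, s2, s3⟩ := h f' f y.1 0 ε hf' hf (by simp) he ((norm_fst_le y).trans hy)
    (by rw [C.gd_zero]; exact (le_max_left _ _).trans hd)
    (by rw [C.vel_zero, norm_sub_rev]; exact (le_max_right _ _).trans hd)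
  have e0 : 0 ≤ ε := (norm_nonneg _).trans hy
  refine max_le (s2.trans (by nlinarith)) ?_
  change |y.2 - C.tm f' f y.1 + 0| ≤ _
  have := (norm_snd_le y).trans hy
  rw [sub_zero] at s3
  rw [add_zero]
  exact (abs_sub _ _).trans (by rw [Real.norm_eq_abs] at this; linarith)

end Cov

open Cov

theorem lkS (h1 : FlS) (h2 : PsS) (h3 : BkS) : LkS := by
  intro n N m a S G C H hm
  obtain ⟨KF, ΛF, hKF, hΛF, hF⟩ := h1 n N a S G C H
  obtain ⟨KP, δP, hKP, -, hP⟩ := h2 n N m a S G C H hm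
  obtain ⟨KB, ΛB, δB, hKB, hΛB, hδB, hB⟩ := h3 n N m a S G C H hm
  obtain ⟨KS, δS, hKS, hδS, hS⟩ := C.near_Lt H hm
  refine ⟨ΛB, hΛB, fun L Λ K0 R0 δ R c0 hL hc hδ hR hR0 => ?_⟩
  set ε := min (min δ δS) (R / (2 * KS)) with hε
  have e0 : 0 < ε := lt_min (lt_min hδ hδS) (by positivity)
  have e1 : ε ≤ δ := (min_le_left _ _).trans (min_le_left _ _)
  have e2 : ε ≤ δS := (min_le_left _ _).trans (min_le_right _ _)
  have e3 : KS * ε < R := by
    have : ε ≤ R / (2 * KS) := min_le_right _ _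
    rw [le_div_iff₀ (by positivity)] at this
    linarith
  refine ⟨ε, e0, fun K1 K c1 hK1 hc1 => ?_⟩
  obtain ⟨T0, hT0⟩ : ∃ T0 : ℕ, ∀ T : ℕ, T0 ≤ T → KF * KP * |K| * Real.exp (-(c1 / 2 * T)) ≤ ε := by
    have t := ((Real.tendsto_exp_neg_atTop_nhds_zero.comp
      ((tendsto_natCast_atTop_atTop (R := ℝ)).const_mul_atTop (half_pos hc1))).const_mul
        (KF * KP * |K|)).eventually (ge_mem_nhds (by simpa using e0))
    exact eventually_atTop.1 t
  refine ⟨KB + 2 + 2 * R / δB + K1 * (K ^ 2 + |K|), c1 / (2 * ΛF * L), T0, by positivity,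
    fun k ok kR kΛ kχ kK kκ kc1 kc T hT l f B nu c c' z z' F F' x x' A A' hf hBx d d' un nb => ?_⟩
  have p1 : 0 ≤ 2 * R / δB := by positivity
  have p2 : 0 ≤ K1 * K ^ 2 := by positivity
  have p3 : 0 ≤ K1 * |K| := by positivity
  rw [mul_add] at kK
  have D0 : 0 < k.D T := Real.exp_pos _
  have le : ∀ j : ℕ, (j : ℝ) ≤ k.κ0 * T → j ≤ T := fun j hj => by
    have : (j : ℝ) ≤ T := hj.trans (mul_le_of_le_one_left (Nat.cast_nonneg _) ok.κ1)
    exact_mod_cast this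
  have sub : ball (0 : ZL m) k.R ⊆ ball 0 R0 := ball_subset_ball (kR ▸ hR0)
  have i0 : (0 : ℝ) ∈ Icc (0 : ℝ) 1 := ⟨le_rfl, zero_le_one⟩
  have cls : ∀ j : ℕ, (j : ℝ) ≤ k.κ0 * T → C.du (bv (F j)) (bv (F' j)) ≤ ε := fun j hj => by
    obtain ⟨b1, b2, b3, b4, b5, -⟩ := nb 0 ⟨le_rfl, ok.τ0.le⟩
    have q1 := (hF _ _ (un 0 i0).1 (un 0 i0).2).1 (j * L)
    have q2 := (hP f hf).1 _ _ (hBx _ b1).1.le (hBx _ b2).1.le (hBx _ b1).2 (hBx _ b2).2
    rw [← b3, ← b4, norm_sub_rev] at q2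
    have q3 : ΛF * |j * L| ≤ c1 / 2 * T := by
      rw [abs_of_nonneg (by positivity)]
      have : (j : ℝ) ≤ c1 / (2 * ΛF * L) * T :=
        hj.trans (mul_le_mul_of_nonneg_right kκ (Nat.cast_nonneg _))
      rw [div_mul_eq_mul_div, le_div_iff₀ (by positivity)] at this
      linarith
    have q4 : Real.exp (ΛF * |j * L|) * k.D T ≤ Real.exp (-(c1 / 2 * T)) := by
      rw [NC.Cst.D, kc1, ← Real.exp_add]; exact Real.exp_le_exp.2 (by linarith)
    rw [d.bv, d'.bv]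
    refine q1.trans (le_trans ?_ (hT0 T hT))
    calc KF * Real.exp (ΛF * |j * L|) * C.du (c 0) (c' 0)
        ≤ KF * Real.exp (ΛF * |j * L|) * (KP * (|K| * k.D T)) := by
          gcongr
          exact q2.trans (mul_le_mul_of_nonneg_left (b5.trans
            (mul_le_mul_of_nonneg_right (le_abs_self K) D0.le)) (by linarith))
      _ = KF * KP * |K| * (Real.exp (ΛF * |j * L|) * k.D T) := by ring
      _ ≤ _ := by gcongr
  have hH := fun (j : ℕ) (hj : (j : ℝ) ≤ k.κ0 * T) (y : ZL m) (hy : y ∈ ball (0 : ZL m) k.R) =>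
    (hc (F j) (d.frm j)).2.2 (F' j) (d'.frm j) ((cls j hj).trans e1) y (sub hy)
  refine ⟨⟨fun j hj => ⟨fun y hy => (hH j hj y hy).2.1.contDiffWithinAt, fun y hy i hi =>
    ((hH j hj y hy).2.2 i hi).trans (kc i)⟩, fun τ hτ j hj => ?_, fun τ hτ j hj b1 b2 b3 => ?_,
    fun τ hτ => ?_⟩, fun τ hτ j i hj hx hV b => ?_⟩
  · rw [mem_ball_zero_iff, kR]
    exact (hS _ _ _ ε (d.frm j) (d'.frm j) e2 (cls j hj) (d'.small τ hτ j (le j hj))).trans_lt e3
  · have hj' : (j : ℝ) ≤ k.κ0 * T := le_trans (by push_cast; linarith) hj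
    have r : x' j τ = C.Lt (F' (j + 1)) (F' j) (-L) (x' (j + 1) τ) :=
      congrFun (d'.crv.rel j (le _ hj)) τ
    have m1 := ((hc (F' j) (d'.frm j)).1 _ (sub b1)).1
    have m2 := ((hc (F j) (d.frm j)).1 _ (sub b3)).1
    rw [← d'.fw] at m1
    rw [← d.fw] at m2
    have m3 := (hH j hj' _ b2).1
    rw [r] at m3
    have k1 := (C.Lt_comp H hm (t' := 0) (d'.frm j) (d.frm j) m1 m3).2
    have k2 := (C.Lt_comp H hm (t' := -L) (d.frm (j + 1)) (d.frm j) (hH _ hj _ b1).1 m2).2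
    rw [r, k1, k2, add_zero, zero_add]
  · obtain ⟨b1, b2, -, -, b5, b, b6⟩ := nb τ hτ
    have m3 := (hH 0 (by rw [Nat.cast_zero]; exact mul_nonneg ok.κ0.le (Nat.cast_nonneg _)) _
      (d'.crv.known τ hτ 0 (Nat.zero_le _)).1).1
    rw [(d'.zero τ hτ).1] at m3
    have k1 := (C.Lt_comp H hm (t' := 0) (d'.frm 0) (d.frm 0) (d'.tay _ b2).1 m3).2
    obtain ⟨k2, k3⟩ := d.zero τ hτ
    obtain ⟨b', k3⟩ := k3 b
    obtain ⟨-, t1, t2⟩ := d.tay _ b1
    obtain ⟨t2, t3⟩ := t2 _ b2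
    have a1 : ‖z' τ - z τ‖ ≤ |K| * k.D T :=
      b5.trans (mul_le_mul_of_nonneg_right (le_abs_self K) D0.le)
    rw [(d'.zero τ hτ).1, k1, add_zero, k2]
    refine ⟨t2.trans ((mul_le_mul_of_nonneg_left a1 (by linarith)).trans ?_), b', ?_⟩
    · rw [← mul_assoc]; exact mul_le_mul_of_nonneg_right (by linarith) D0.le
    · rw [k3]
      set Dg := fderiv ℝ (C.Lt f (F 0) 0) (z τ)
      have a2 := (Dg.le_opNorm _).trans (mul_le_mul t1 (b6.trans
        (mul_le_mul_of_nonneg_right (le_abs_self K) (sq_nonneg _))) (norm_nonneg _) (by linarith))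
      have a3 : ‖z' τ - z τ‖ ^ 2 ≤ (|K| * k.D T) ^ 2 := pow_le_pow_left₀ (norm_nonneg _) a1 2
      rw [mul_pow, sq_abs] at a3
      have a4 := norm_add_le (C.Lt f (F 0) 0 (z' τ) - C.Lt f (F 0) 0 (z τ) - Dg (z' τ - z τ))
        (Dg (z' τ - z τ - lif (z τ).1 (nu (z τ).1 b)))
      rw [map_sub Dg (z' τ - z τ), sub_add_sub_cancel] at a4
      rw [map_sub Dg (z' τ - z τ)] at a2
      have a5 := mul_le_mul_of_nonneg_left a3 (by linarith : 0 ≤ K1)
      have a6 := mul_le_mul_of_nonneg_right (by linarith : K1 * (K ^ 2 + |K|) ≤ k.K)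
        (sq_nonneg (k.D T))
      linarith
  · have K2 : 2 ≤ k.K := by linarith
    have r1 : k.R / k.K < k.R := div_lt_self ok.R (by linarith)
    have r2 : 2 * (k.R / k.K) ≤ δB := by
      have : 2 * R / δB ≤ k.K := by linarith
      rw [div_le_iff₀ hδB] at this
      rw [← mul_div_assoc, div_le_iff₀ (by linarith), kR]; linarith
    have jT := le j hj
    obtain ⟨-, u1, u2⟩ := d.tru τ hτ j jT fun i h h' =>
      mem_ball_zero_iff.2 ((hx i h.le h').1.trans_lt r1)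
    obtain ⟨-, u3, -⟩ := d'.tru τ hτ j jT fun i h h' =>
      mem_ball_zero_iff.2 ((hx i h.le h').2.trans_lt r1)
    obtain ⟨n1, n2⟩ := hx j le_rfl jT
    have u4 := C.Ps_Lt H hm (d'.frm j) (d.frm j)
      (hH j hj _ (mem_ball_zero_iff.2 (n2.trans_lt r1))).1 0
    rw [C.fu_zero, u3] at u4
    have s0 : (0 : ℝ) ≤ j + i := by positivity
    have hV' : ‖C.Lt (F' j) (F j) 0 (x' j τ) - x j τ‖ ≤ k.R / k.K :=
      (le_mul_of_one_le_left (norm_nonneg _) (Real.one_le_exp (mul_nonneg ok.Λ.le s0))).trans hV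
    have r0 : 0 ≤ k.R / k.K := (norm_nonneg _).trans n1
    have q := hB (F j) (x j τ) (C.Lt (F' j) (F j) 0 (x' j τ)) (A j τ b) ((j + i) * L) (d.frm j)
      (by linarith) (by linarith [norm_le_norm_add_norm_sub' (C.Lt (F' j) (F j) 0 (x' j τ)) (x j τ)]) (u2 b)
      (by positivity)
    rw [u1, u4, C.fu_add (un τ hτ).1, C.fu_add (un τ hτ).2,
      show (j : ℝ) * L + -((j + i) * L) = -(i * L) by ring] at q
    refine q.trans ?_
    have w1 : k.χ * (j + i) ≤ a * ((j + i) * L) := by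
      linarith [mul_le_mul_of_nonneg_right kχ s0]
    have w2 : ΛB * ((j + i) * L) ≤ k.Λ * (j + i) := by
      linarith [mul_le_mul_of_nonneg_right kΛ s0]
    have w3 : ΛB * ((j + i) * L) ≤ 2 * k.Λ * (j + i) := by linarith [mul_nonneg ok.Λ.le s0]
    refine mul_le_mul (by linarith) (add_le_add (add_le_add ?_ ?_) ?_) (by positivity) (by linarith)
    · exact mul_le_mul_of_nonneg_right (Real.exp_le_exp.2 (neg_le_neg w1)) (norm_nonneg _)
    · exact mul_le_mul_of_nonneg_right (Real.exp_le_exp.2 w2) (norm_nonneg _)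
    · exact mul_le_mul_of_nonneg_right (Real.exp_le_exp.2 w3) (sq_nonneg _)

end Crest.Agent.N221
end
end

-- ▼ part N221/Ni/Bk
section

/-!
Row 221, block Ni (helper72): backward contraction `BkS`.
-/

set_option autoImplicit false

open Set Filter Topology Metric
open scoped ContDiff RealInnerProductSpace
open Crest.GeometryTopology.Submanifold
open Crest.Agent.R241.DDefs Crest.Agent.R241.D2
open Crest.Agent.R208.J Crest.Agent.R208.L

noncomputable section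

namespace Crest.Agent.N221

namespace BkP

lemma tay2 {E V : Type} [NormedAddCommGroup E] [NormedSpace ℝ E] [NormedAddCommGroup V]
    [NormedSpace ℝ V] {f : E → V} {f' : E → E →L[ℝ] V} {L : ℝ} (hL : 0 ≤ L)
    (hf : ∀ x, HasFDerivAt f (f' x) x)
    (h : ∀ x x', ‖x‖ ≤ 1 → ‖x'‖ ≤ 1 → ‖f' x - f' x'‖ ≤ L * ‖x - x'‖) {q q' : E} (hq : ‖q‖ ≤ 1)
    (hq' : ‖q'‖ ≤ 1) : ‖f q' - f q - f' q (q' - q)‖ ≤ L * ‖q' - q‖ ^ 2 := by
  rw [sq, ← mul_assoc]
  exact ((convex_closedBall (0 : E) 1).inter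
    (convex_closedBall q ‖q' - q‖)).norm_image_sub_le_of_norm_hasFDerivWithin_le'
    (fun x _ => (hf x).hasFDerivWithinAt) (fun x hx => (h x q (by simpa using hx.1) hq).trans
      (by gcongr; exact mem_closedBall_iff_norm.1 hx.2)) ⟨by simpa, by simp⟩
    ⟨by simpa, mem_closedBall_iff_norm.2 le_rfl⟩

variable {n N m : ℕ} {a : ℝ} {S : Set (Euc N)} {G : Geo n N (-(a ^ 2)) S} (C : Cov G)

lemma du_tri (ha : 0 < a) (p q r : Euc n × Euc N) : C.du p r ≤ C.du p q + C.du q r :=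
  max_le ((C.dd_triangle ha.le _ q.1 _).trans (add_le_add (le_max_left _ _) (le_max_left _ _)))
    ((norm_sub_le_norm_sub_add_norm_sub _ q.2 _).trans
      (add_le_add (le_max_right _ _) (le_max_right _ _)))


/-- the lifted unstable graph lies in one strong unstable leaf -/
lemma ps_gu (H : Hyp n N a S) (hm : m + 1 = n) {f : FF n N m} {η : Euc n} {q : Euc m}
    (hf : C.Frm f) (hη : C.Fw (fp f) η) (hq : ‖q‖ ≤ 2 * C.rr m) (s : ℝ) :
    C.Un (C.Ps f (C.gu f η q, s)).1 (C.Ps f (C.gu f η q, s)).2 ∧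
    C.ep (C.Ps f (C.gu f η q, s)).1 (-(C.Ps f (C.gu f η q, s)).2) = η ∧
    C.b η (C.Ps f (C.gu f η q, s)).1 = C.b η f.1 - C.bq f η q + s := by
  obtain ⟨h1, h2, h3⟩ := C.ge_gu H hm hf hη hq
  have u := C.un_uv H hf h1
  refine ⟨Cov.Un.vel C u s, (C.ep_gd_neg H.a_pos u s).trans h3, ?_⟩
  show C.b η (C.gd (C.hy f q) (C.uv f (C.gu f η q)) s) = _
  rw [h2, C.gd_neg, C.b_gd H.a_pos (Cov.bas_ne0 hη.1), Cov.bq]; ring

end BkP

open BkP in
theorem bkS (h1 : FlS) (h2 : PsS) : BkS := by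
  intro n N m a S G C H hm
  have ha := H.a_pos
  obtain ⟨K₁, Λ, hK₁, hΛ, hfl⟩ := h1 n N a S G C H
  obtain ⟨K₂, δ₂, hK₂, -, hps⟩ := h2 n N m a S G C H hm
  obtain ⟨B, hB, hpq⟩ := C.pq_lip H hm
  obtain ⟨L, hL, hHH⟩ := C.HH_lip H (m := m) 1
  have r0 := C.rr_pos H hm
  have r1 := (C.rad H hm).le
  set M := 2 + B + L with hM
  obtain ⟨δ, hδ, d1, d2⟩ : ∃ δ > 0, 3 * M * δ ≤ C.rr m ∧ K₂ * (2 * M * δ) ≤ 1 := by
    refine ⟨min (C.rr m / (3 * M)) (1 / (K₂ * (2 * M))), by positivity, ?_, ?_⟩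
    · rw [mul_comm, ← le_div_iff₀ (by positivity)]; exact min_le_left _ _
    · rw [← mul_assoc, mul_comm, ← le_div_iff₀ (by positivity)]; exact min_le_right _ _
  have M2 : 2 ≤ M := by linarith
  refine ⟨2 * (K₁ * K₂ * M), Λ, δ, by nlinarith [mul_le_mul hK₁ hK₂ zero_le_one (by linarith)], hΛ,
    hδ, ?_⟩
  rintro f ⟨z, s⟩ ⟨z', s'⟩ w t hf hy hy' ⟨e, rfl⟩ ht
  have dr : 6 * δ ≤ C.rr m := by linarith [mul_le_mul_of_nonneg_right M2 hδ.le]
  have hz : ‖z‖ ≤ δ := (norm_fst_le (z, s)).trans hy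
  have hz' : ‖z'‖ ≤ δ := (norm_fst_le (z', s')).trans hy'
  have hq : ‖z.1‖ ≤ δ := (norm_fst_le z).trans hz
  have hq' : ‖z'.1‖ ≤ δ := (norm_fst_le z').trans hz'
  have hp : ‖z.2‖ ≤ 1 := (norm_snd_le z).trans (by linarith)
  set η := (C.ge f z).2
  have hη : C.Fw (fp f) η := C.back H hm hf (by linarith)
  have h0 := Cov.bas_ne0 hη.1
  have ez : C.gu f η z.1 = z := C.eq_gu H hf (C.Dm_of_le H hm hf (by linarith))
  have ep : C.pq f η z.1 = -z.2 := by rw [← congrArg Prod.snd ez]; simp [Cov.gu]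
  set y'' : ZL m := (C.gu f η z'.1, s + C.bq f η z'.1 - C.bq f η z.1) with hy''
  set D := ‖((z', s') : ZL m) - (z, s) - lif z (e, C.Su f z e)‖ with hD
  set Q := ‖((z', s') : ZL m) - (z, s)‖ with hQ
  set W := ‖lif z (e, C.Su f z e)‖
  have q1 : ‖z'.1 - z.1‖ ≤ Q := (norm_fst_le (z' - z)).trans (norm_fst_le ((z', s') - (z, s)))
  have D1 : ‖z'.1 - z.1 - e‖ ≤ D := (norm_fst_le (z' - z - (e, C.Su f z e))).trans
    (norm_fst_le ((z', s') - (z, s) - lif z (e, C.Su f z e)))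
  have D2 : ‖z'.2 - z.2 - C.Su f z e‖ ≤ D := (norm_snd_le (z' - z - (e, C.Su f z e))).trans
    (norm_fst_le ((z', s') - (z, s) - lif z (e, C.Su f z e)))
  have D3 : ‖s' - s - -⟪z.2, e⟫‖ ≤ D := norm_snd_le ((z', s') - (z, s) - lif z (e, C.Su f z e))
  have W1 : ‖e‖ ≤ W := (norm_fst_le (e, C.Su f z e)).trans (norm_fst_le (lif z (e, C.Su f z e)))
  have D0 : 0 ≤ D := norm_nonneg _
  have b1 := hpq f η z'.1 z.1 hf hη.1 (by linarith) (by linarith)
  have t1 := tay2 hL.le (C.hasFDerivAt_pq H h0 f) (fun x x' => hHH f η x x' hf hη.1)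
    (q := z.1) (q' := z'.1) (by linarith) (by linarith)
  have t2 := tay2 hB.le (C.hasFDerivAt_bq H h0 f) (fun x x' hx hx' => by
    rw [← map_sub, innerSL_apply_norm]; exact (hpq f η x x' hf hη.1 hx hx').2)
    (q := z.1) (q' := z'.1) (by linarith) (by linarith)
  rw [ep] at t1 t2 b1
  simp only [innerSL_apply_apply, inner_neg_left, Real.norm_eq_abs] at t2 D3
  have q2 : ‖z'.1 - z.1‖ ^ 2 ≤ Q ^ 2 := by gcongr
  have q3 : ‖z'.1 - z.1‖ ≤ 2 * δ := (norm_sub_le _ _).trans (by linarith)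
  have i1 : ∀ x : Euc m, |⟪z.2, x⟫| ≤ ‖x‖ := fun x =>
    (abs_real_inner_le_norm _ _).trans (mul_le_of_le_one_left (norm_nonneg _) hp)
  have n1 : ‖y'' - (z, s)‖ ≤ M * ‖z'.1 - z.1‖ := by
    have hx := norm_nonneg (z'.1 - z.1)
    have := mul_nonneg hB.le hx
    have := mul_nonneg hL.le hx
    rw [hM, add_mul, add_mul]
    refine max_le (max_le (show ‖z'.1 - z.1‖ ≤ _ by linarith) ?_) ?_
    · show ‖-C.pq f η z'.1 - z.2‖ ≤ _
      rw [← norm_neg, neg_sub', neg_neg]; linarith [b1.2]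
    · show |s + C.bq f η z'.1 - C.bq f η z.1 - s| ≤ _
      have := abs_le.1 t2; have := abs_le.1 (i1 (z'.1 - z.1))
      have : B * ‖z'.1 - z.1‖ ^ 2 ≤ B * ‖z'.1 - z.1‖ := by
        rw [sq]; gcongr; exact mul_le_of_le_one_left hx (by linarith)
      rw [abs_le]; constructor <;> linarith
  have n2 : ‖((z', s') : ZL m) - y''‖ ≤ M * (D + Q ^ 2) := by
    have hx := sq_nonneg Q
    have := mul_nonneg hB.le hx
    have := mul_nonneg hL.le hx
    have := mul_nonneg hB.le D0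
    have := mul_nonneg hL.le D0
    rw [hM, add_mul, add_mul, mul_add, mul_add, mul_add]
    refine max_le (max_le (show ‖z'.1 - z'.1‖ ≤ _ by rw [sub_self, norm_zero]; positivity) ?_) ?_
    · show ‖z'.2 - -C.pq f η z'.1‖ ≤ _
      have e1 : z'.2 - -C.pq f η z'.1 = (z'.2 - z.2 - C.Su f z e) + C.HH f η z.1 (z'.1 - z.1 - e) +
          (C.pq f η z'.1 - -z.2 - C.HH f η z.1 (z'.1 - z.1)) := by
        simp only [Cov.Su, map_sub, neg_apply, η]; abel
      have e2 := (C.HH f η z.1).le_of_opNorm_le (hpq f η z.1 z.1 hf hη.1 (by linarith)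
        (by linarith)).1 (z'.1 - z.1 - e)
      rw [e1]
      refine (norm_add₃_le).trans ?_
      linarith [mul_le_mul_of_nonneg_left D1 hB.le, mul_le_mul_of_nonneg_left q2 hL.le]
    · show |s' - (s + C.bq f η z'.1 - C.bq f η z.1)| ≤ _
      have := abs_le.1 t2; have := abs_le.1 D3
      have h3 := abs_le.1 ((i1 (z'.1 - z.1 - e)).trans D1)
      rw [inner_sub_right] at h3
      have := mul_le_mul_of_nonneg_left q2 hB.le
      rw [abs_le]; constructor <;> linarith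
  have n3 : ‖y'' - (z, s)‖ ≤ 2 * M * δ := n1.trans (by rw [mul_comm 2, mul_assoc]; gcongr)
  have n4 : ‖y''‖ ≤ C.rr m := by
    linarith [norm_sub_norm_le y'' (z, s), mul_le_mul_of_nonneg_right M2 hδ.le]
  have lip := fun (y y' : ZL m) (hy : ‖y‖ ≤ C.rr m) (hy' : ‖y'‖ ≤ C.rr m) => (hps f hf).1 y y'
    ((norm_fst_le y).trans hy) ((norm_fst_le y').trans hy')
    ((norm_snd_le y).trans (hy.trans (by linarith))) ((norm_snd_le y').trans (hy'.trans (by linarith)))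
  have g1 := ps_gu C H hm hf hη (q := z.1) (by linarith) s
  have g2 := ps_gu C H hm hf hη (q := z'.1) (by linarith) y''.2
  rw [ez] at g1
  have u' : C.Un (C.Ps f (z', s')).1 (C.Ps f (z', s')).2 :=
    Cov.Un.vel C (C.un_uv H hf (C.Dm_of_le H hm hf (by linarith))) s'
  have l1 := lip y'' (z, s) n4 (by linarith)
  have l2 := lip (z', s') y'' (by linarith) n4
  have c1 := (hfl _ _ g2.1 g1.1).2.2 ⟨g1.2.1.trans g2.2.1.symm, by
    rw [g2.2.1, g1.2.2, g2.2.2]; simp only [hy'']; ring⟩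
    (l1.trans ((mul_le_mul_of_nonneg_left n3 (by linarith)).trans d2)) t ht
  have c2 := (hfl _ _ u' g2.1).1 (-t)
  rw [abs_neg, abs_of_nonneg ht] at c2
  have q4 : ‖z'.1 - z.1‖ ≤ W + D := by linarith [norm_sub_norm_le (z'.1 - z.1) e]
  have x1 : Real.exp (-(a * t)) ≤ Real.exp (Λ * t) := Real.exp_le_exp.2 (by
    linarith [mul_nonneg ha.le ht, mul_nonneg hΛ.le ht])
  have x0 := Real.exp_pos (-(a * t))
  calc _ ≤ _ := du_tri C ha _ (C.fu (-t) (C.Ps f y'')) _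
    _ ≤ K₁ * Real.exp (Λ * t) * (K₂ * (M * (D + Q ^ 2))) +
        K₁ * Real.exp (-(a * t)) * (K₂ * (M * (W + D))) := by
      refine add_le_add (c2.trans ?_) (c1.trans ?_)
      · gcongr; exact l2.trans (by gcongr)
      · gcongr; exact l1.trans (by gcongr; exact n1.trans (by gcongr))
    _ = K₁ * K₂ * M * (Real.exp (Λ * t) * (D + Q ^ 2) + Real.exp (-(a * t)) * (W + D)) := by ring
    _ ≤ K₁ * K₂ * M * (2 * (Real.exp (-(a * t)) * W + Real.exp (Λ * t) * D +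
        Real.exp (Λ * t) * Q ^ 2)) := by
      gcongr
      rw [mul_add, mul_add]
      linarith [mul_le_mul_of_nonneg_right x1 D0, mul_nonneg x0.le (norm_nonneg _ : 0 ≤ W),
        mul_nonneg (Real.exp_pos (Λ * t)).le (sq_nonneg Q)]
    _ = _ := by ring

end Crest.Agent.N221
end
end

-- ▼ part N221/Ni/Chn
section

/-! Row 221, block Ni (helper86): `chnS : ChnS`, the constants of the chains of lifted charts. -/

set_option autoImplicit false

open Set Filter Topology Metric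
open scoped ContDiff RealInnerProductSpace
open Crest.GeometryTopology.Submanifold
open Crest.Agent.R241.DDefs Crest.Agent.R241.D2
open Crest.Agent.R208.J Crest.Agent.R208.L

noncomputable section

namespace Crest.Agent.N221

namespace Chn

variable {E V : Type} [NormedAddCommGroup E] [NormedSpace ℝ E] [NormedAddCommGroup V]
  [NormedSpace ℝ V]

lemma linf (j : ℕ) : (j : ℕ∞ω) ≤ (∞ : ℕ∞ω) := by exact_mod_cast le_top

/-- jets of `f ∘ fst` -/
lemma jet_fst {f : E → V} {U : Set E} (hU : IsOpen U) (hf : ContDiffOn ℝ ∞ f U) {z : E × ℝ}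
    (hz : z.1 ∈ U) (j : ℕ) :
    ‖iteratedFDeriv ℝ j (fun z : E × ℝ => f z.1) z‖ ≤ ‖iteratedFDeriv ℝ j f z.1‖ := by
  set L := ContinuousLinearMap.fst ℝ E ℝ
  have ho : IsOpen (L ⁻¹' U) := hU.preimage L.continuous
  have := L.iteratedFDerivWithin_comp_right hf hU.uniqueDiffOn ho.uniqueDiffOn (x := z) hz (linf j)
  rw [iteratedFDerivWithin_of_isOpen _ ho hz,
    iteratedFDerivWithin_of_isOpen _ hU (x := L z) hz] at this
  change ‖iteratedFDeriv ℝ j (f ∘ L) z‖ ≤ _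
  rw [this]
  refine (ContinuousMultilinearMap.norm_compContinuousLinearMap_le _ _).trans ?_
  exact mul_le_of_le_one_right (norm_nonneg _)
    (Finset.prod_le_one (fun _ _ => norm_nonneg _) fun _ _ => ContinuousLinearMap.norm_fst_le ..)

lemma jet_snd (t : ℝ) (z : E × ℝ) {j : ℕ} (hj : 1 ≤ j) :
    ‖iteratedFDeriv ℝ j (fun z : E × ℝ => z.2 + t) z‖ ≤ 1 := by
  obtain ⟨i, rfl⟩ : ∃ i, j = i + 1 := ⟨j - 1, by omega⟩
  have e : fderiv ℝ (fun z : E × ℝ => z.2 + t) = fun _ => ContinuousLinearMap.snd ℝ E ℝ :=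
    funext fun z => (hasFDerivAt_snd.add_const t).fderiv
  rw [← norm_iteratedFDeriv_fderiv, e]
  rcases eq_or_ne i 0 with rfl | h
  · rw [norm_iteratedFDeriv_zero]; exact ContinuousLinearMap.norm_snd_le ..
  · rw [iteratedFDeriv_const_of_ne h]; simp

end Chn

namespace Cov

open Chn

variable {n N m : ℕ} {a : ℝ} {S : Set (Euc N)} {G : Geo n N (-(a ^ 2)) S} (C : Cov G)
variable {f f' : FF n N m} {y : ZL m} {t : ℝ}
variable (H : Hyp n N a S) (hm : m + 1 = n)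
include H hm

lemma chn_sm (hf : C.Frm f) (hf' : C.Frm f') (hy : y.1 ∈ C.dm f f') (t : ℝ) :
    ContDiffAt ℝ ∞ (C.Lt f f' t) y :=
  ((C.contDiffAt_Tf H hm hf hf' hy).comp y contDiffAt_fst).prodMk
    ((contDiffAt_snd.sub ((C.contDiffAt_tm H hm hf hf' hy).comp y contDiffAt_fst)).add
      contDiffAt_const)

/-- uniform jets of the lifted transitions -/
lemma chn_ub (R : ℝ) : ∃ c : ℕ → ℝ, (∀ j, 1 ≤ c j) ∧ ∀ (f f' : FF n N m) (t : ℝ) (y : ZL m),
    C.Frm f → C.Frm f' → C.dd f.1 f'.1 ≤ R → y.1 ∈ C.dm f f' → ∀ j, 1 ≤ j →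
      ‖iteratedFDeriv ℝ j (C.Lt f f' t) y‖ ≤ c j := by
  choose B hB using C.jb_Tf H hm R
  choose B' hB' using C.jb_tm H hm R
  refine ⟨fun j => max (B j) (1 + |B' j|), fun j => le_max_of_le_right
    (le_add_of_nonneg_right (abs_nonneg _)), fun f f' t y hf hf' hd hy j hj => ?_⟩
  have ho := C.isOpen_dm H hm hf hf'
  have h1 : ContDiffOn ℝ ∞ (C.Tf f f') (C.dm f f') := fun z hz =>
    (C.contDiffAt_Tf H hm hf hf' hz).contDiffWithinAt
  have h2 : ContDiffOn ℝ ∞ (C.tm f f') (C.dm f f') := fun z hz =>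
    (C.contDiffAt_tm H hm hf hf' hz).contDiffWithinAt
  have s := C.chn_sm H hm hf hf' hy t
  have e := iteratedFDeriv_prodMk s.fst s.snd (linf j)
  change iteratedFDeriv ℝ j (C.Lt f f' t) y = _ at e
  rw [e, ContinuousMultilinearMap.opNorm_prod]
  refine max_le_max ((jet_fst ho h1 hy j).trans (hB j ((f, f'), y.1) ⟨hf, hf', hd, hy⟩)) ?_
  have e2 : (fun x : ZL m => (C.Lt f f' t x).2) =
      (fun x : ZL m => x.2 + t) - fun x : ZL m => C.tm f f' x.1 := by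
    funext x; simp only [Lt, Pi.sub_apply]; ring
  have s1 : ContDiffAt ℝ j (fun x : ZL m => x.2 + t) y := by fun_prop
  have s2 : ContDiffAt ℝ j (fun x : ZL m => C.tm f f' x.1) y :=
    ((C.contDiffAt_tm H hm hf hf' hy).comp y contDiffAt_fst).of_le (linf j)
  rw [e2, iteratedFDeriv_sub_apply s1 s2]
  exact (norm_sub_le _ _).trans (add_le_add (jet_snd t y hj) ((jet_fst ho h2 hy j).trans
    ((hB' j ((f, f'), y.1) ⟨hf, hf', hd, hy⟩).trans (le_abs_self _))))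

/-- the inverse transition -/
lemma chn_inv (hf : C.Frm f) (hf' : C.Frm f') (hy : y.1 ∈ C.dm f f') (t : ℝ) :
    C.Lt f' f (-t) (C.Lt f f' t y) = y := by
  obtain ⟨-, h1, h2⟩ := C.Tf_symm H hm hf hf' hy
  refine Prod.ext h1 ?_
  change y.2 - C.tm f f' y.1 + t - C.tm f' f (C.Tf f f' y.1) + -t = y.2
  rw [h2]; ring

lemma chn_dinv (hf : C.Frm f) (hf' : C.Frm f') (hy : y.1 ∈ C.dm f f') (t : ℝ) (v : ZL m) :
    fderiv ℝ (C.Lt f' f (-t)) (C.Lt f f' t y) (fderiv ℝ (C.Lt f f' t) y v) = v := by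
  have d1 := ((C.chn_sm H hm hf hf' hy t).differentiableAt (by simp)).hasFDerivAt
  have d2 := ((C.chn_sm H hm hf' hf (y := C.Lt f f' t y) (C.Tf_symm H hm hf hf' hy).1
    (-t)).differentiableAt (by simp)).hasFDerivAt
  have e : (C.Lt f' f (-t) ∘ C.Lt f f' t) =ᶠ[𝓝 y] id := by
    filter_upwards [continuous_fst.continuousAt.preimage_mem_nhds
      ((C.isOpen_dm H hm hf hf').mem_nhds hy)] with x hx using C.chn_inv H hm hf hf' hx t
  have := ((d2.comp y d1).congr_of_eventuallyEq e.symm).unique (hasFDerivAt_id y)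
  exact congrArg (fun L : ZL m →L[ℝ] ZL m => L v) this

omit hm in
lemma chn_b {x : Euc n} {u : Euc N} (hu : C.Un x u) (s : ℝ) :
    C.b (C.ep x u) (C.gd x u s) = C.b (C.ep x u) x - s := by
  have e := C.b_gd H.a_pos (C.ep_ne_zero H.a_pos hu) x s
  rwa [C.W_ep_self H.a_pos hu] at e

/-- the centre plaque in coordinates -/
lemma mem_Lf (hf : C.Frm f) : y ∈ C.Lf f ↔ ‖y.1‖ < C.rr m ∧ (C.ge f y.1).1 = (C.ge f 0).1 ∧
    y.2 = -C.bq f (C.ge f 0).1 y.1.1 := by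
  refine and_congr_right fun hy => ?_
  have hu := C.un_uv H hf (C.Dm_lt H hm hf hy)
  rw [C.ge_zero H hf]
  change (C.ep (C.gd _ _ y.2) (C.vel _ _ y.2) = C.ep f.1 f.2.1 ∧
    C.b (C.ep f.1 f.2.1) (C.gd _ _ y.2) = C.b (C.ep f.1 f.2.1) f.1) ↔
    (C.ep (C.hy f y.1.1) (C.uv f y.1) = C.ep f.1 f.2.1 ∧ y.2 = -(C.b (C.ep f.1 f.2.1) f.1 -
      C.b (C.ep f.1 f.2.1) (C.hy f y.1.1)))
  rw [C.ep_gd H.a_pos hu]
  refine and_congr_right fun h => ?_
  have e := C.chn_b H hu y.2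
  rw [h] at e
  rw [e]
  constructor <;> intro h <;> linarith

lemma Lf_le : ∃ K, 1 ≤ K ∧ ∀ (f : FF n N m) (y : ZL m), C.Frm f → y ∈ C.Lf f →
    ‖y‖ ≤ K * ‖y.1.1‖ := by
  obtain ⟨K, hK, h⟩ := C.gs_le H hm
  refine ⟨K, hK, fun f y hf hy => ?_⟩
  obtain ⟨h1, h2, h3⟩ := (C.mem_Lf H hm hf).1 hy
  obtain ⟨c1, c2, -⟩ := C.cen_s H hm hf
  have r := (C.rad H hm).le
  have e := C.eq_gs H hf (C.Dm_lt H hm hf h1)
  rw [h2] at e
  have k := (h f _ y.1.1 hf c1.1 (by linarith [norm_fst_le y.1])).1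
  rw [e, c2, norm_zero, zero_add] at k
  refine max_le k ?_
  have hξ : (C.ge f 0).1 ≠ 0 := by rw [← norm_ne_zero_iff, c1.1]; exact one_ne_zero
  have k2 := C.abs_b_sub_le H.a_pos hξ f.1 (C.hy f y.1.1)
  rw [C.dd_hy hf] at k2
  rw [h3, norm_neg]
  exact k2.trans (le_mul_of_one_le_left (norm_nonneg _) hK)

/-- the flow preserves the centre plaques -/
lemma Lt_Lf (hf : C.Frm f) (hf' : C.Frm f') (h : C.Ov f f' t) (hd : y.1 ∈ C.dm f f')
    (hy : y ∈ C.Lf f) : C.Lt f f' t y ∈ C.Lf f' := by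
  obtain ⟨-, h2, h3⟩ := (C.mem_Lf H hm hf).1 hy
  obtain ⟨k1, k2⟩ := C.Tf_spec H hm hf' hd
  have e := Ov.ge_eq C H hm hf hf' h
  refine (C.mem_Lf H hm hf').2 ⟨k1, ?_, ?_⟩
  · change (C.ge f' (C.Tf f f' y.1)).1 = _
    rw [k2, h2, e]
  · change y.2 - C.tm f f' y.1 + t = -C.bq f' (C.ge f' 0).1 (C.Tf f f' y.1).1
    have b := C.chn_b H hf.un t
    rw [← h.1] at b
    rw [h3, e, tm, h2, bq, bq, C.ge_zero H hf]
    linarith

end Cov

open Cov

theorem chnS : ChnS := by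
  intro n N m a S G C H hm
  have ha := H.a_pos
  obtain ⟨K1, δ1, hK1, hδ1, hp⟩ := C.push_s H hm
  obtain ⟨K2, hK2, hL⟩ := C.Lf_le H hm
  set L := max 1 (Real.log (2 * K1 * K2) / a) with hLd
  have L1 : 1 ≤ L := le_max_left _ _
  have L2 : 2 * K1 * K2 * Real.exp (-(a * L)) ≤ 1 := by
    have : Real.log (2 * K1 * K2) ≤ a * L := by
      rw [← div_le_iff₀' ha]; exact le_max_right _ _
    rw [Real.log_le_iff_le_exp (by positivity)] at this
    rw [Real.exp_neg, mul_inv_le_iff₀ (Real.exp_pos _), one_mul]; exact this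
  obtain ⟨K3, δ3, hK3, hδ3, hs⟩ := C.step H hm L
  obtain ⟨c, hc, hb⟩ := C.chn_ub H hm L
  set R := min (min δ3 (δ1 / K3)) (C.rr m)
  have R0 : 0 < R := lt_min (lt_min hδ3 (by positivity)) (C.rr_pos H hm)
  have R1 : R ≤ δ3 := (min_le_left _ _).trans (min_le_left _ _)
  have R2 : K3 * R ≤ δ1 := by
    rw [← le_div_iff₀' hK3]; exact (min_le_left _ _).trans (min_le_right _ _)
  have ec : c 1 ≤ Real.exp (c 1) := by linarith [Real.add_one_le_exp (c 1)]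
  refine ⟨L, c 1, K2, R, min R 1, c, L1, by linarith [hc 1], hK2, R0, min_le_right _ _,
    lt_min R0 one_pos, hc, fun f hf => ?_⟩
  have hf' := Frm.fw C hf L
  have ov := C.ov_fw f L
  have ov' := Ov.symm C hf ov
  have d1 : C.dd f.1 (C.fw f L).1 ≤ L := by rw [Ov.dd C hf ov, abs_of_nonneg (by linarith)]
  have d2 : C.dd (C.fw f L).1 f.1 ≤ L := by rwa [C.dd_comm]
  refine ⟨fun y hy => ?_, ?_, fun f' hf' hd y hy => ?_⟩
  · have y1 : ‖y.1‖ ≤ R := (norm_fst_le y).trans (mem_ball_zero_iff.1 hy).le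
    obtain ⟨s1, s2, -⟩ := hs (C.fw f L) f y.1 (-L) R hf' hf
      (by rw [abs_neg, abs_of_nonneg (by linarith)]) R1 y1
      (by rw [← ov'.1, C.dd_self]; exact R0.le) (by rw [← ov'.2, sub_self, norm_zero]; exact R0.le)
    obtain ⟨t1, t2, -⟩ := C.Tf_symm H hm hf' hf s1
    refine ⟨s1, C.chn_sm H hm hf' hf s1 _, ?_, hb _ _ _ _ hf' hf d2 s1, fun v => ?_,
      fun h => ?_, hL f y hf⟩
    · rw [← norm_iteratedFDeriv_one]
      exact (hb _ _ _ _ hf' hf d2 s1 1 le_rfl).trans ec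
    · have k := hb f (C.fw f L) (- -L) (C.Lt (C.fw f L) f (-L) y) hf hf' d1 t1 1 le_rfl
      rw [norm_iteratedFDeriv_one] at k
      conv_lhs => rw [← C.chn_dinv H hm hf' hf s1 (-L) v]
      exact (ContinuousLinearMap.le_opNorm _ _).trans
        (mul_le_mul_of_nonneg_right (k.trans ec) (norm_nonneg _))
    · have k := C.Lt_Lf H hm hf' hf ov' s1 h
      refine ⟨k, ?_⟩
      have k1 := (hp f (C.fw f L) L _ hf hf' ov (by linarith) (s2.trans R2)
        ((C.mem_Lf H hm hf).1 k).2.1).2.1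
      rw [t2] at k1
      have k2 : ‖C.Tf (C.fw f L) f y.1‖ ≤ K2 * ‖(C.Lt (C.fw f L) f (-L) y).1.1‖ :=
        (norm_fst_le (C.Lt (C.fw f L) f (-L) y)).trans (hL f _ hf k)
      have k3 := mul_le_mul_of_nonneg_left k2 (a := K1 * Real.exp (-(a * L))) (by positivity)
      have k4 := mul_le_mul_of_nonneg_right L2 (norm_nonneg (C.Lt (C.fw f L) f (-L) y).1.1)
      have k5 := norm_fst_le y.1
      nlinarith
  · obtain ⟨-, z1, z2⟩ := C.Tf_zero H hm hf' hf ov'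
    refine Prod.ext z1 ?_
    change (0 : ℝ) - C.tm (C.fw f L) f 0 + -L = 0
    rw [z2]; ring
  · have y1 : ‖y.1‖ ≤ R := (norm_fst_le y).trans (mem_ball_zero_iff.1 hy).le
    have e1 : C.dd f.1 f'.1 ≤ min R 1 := (le_max_left _ _).trans hd
    have e2 : ‖f.2.1 - f'.2.1‖ ≤ min R 1 := (le_max_right _ _).trans hd
    obtain ⟨s1, -⟩ := hs f' f y.1 0 R hf' hf (by rw [abs_zero]; linarith) R1 y1
      (by rw [C.gd_zero]; exact e1.trans (min_le_left _ _))
      (by rw [C.vel_zero, norm_sub_rev]; exact e2.trans (min_le_left _ _))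
    exact ⟨s1, C.chn_sm H hm hf' hf s1 _, hb _ _ _ _ hf' hf
      (by rw [C.dd_comm]; exact e1.trans ((min_le_right _ _).trans L1)) s1⟩

end Crest.Agent.N221
end
end

-- ▼ part N221/NC/Core
section

/-! Row 221, block NC (helper28): assembly of the core. -/

set_option autoImplicit false

open Set Metric Filter
open scoped ContDiff Topology

noncomputable section

namespace Crest.Agent.N221.NC

lemma ev_exp {p ε : ℝ} (hp : 0 < p) (hε : 0 < ε) :
    ∀ᶠ T : ℕ in atTop, Real.exp (-(p * T)) ≤ ε := by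
  have h : Tendsto (fun T : ℕ => Real.exp (-(p * T))) atTop (𝓝 0) :=
    Real.tendsto_exp_neg_atTop_nhds_zero.comp
      (tendsto_natCast_atTop_atTop.const_mul_atTop hp)
  exact (h.eventually (ge_mem_nhds hε))

lemma ev_lin {p : ℝ} (hp : 0 < p) : ∀ᶠ T : ℕ in atTop, 1 ≤ p * T :=
  (tendsto_natCast_atTop_atTop.const_mul_atTop hp).eventually_ge_atTop 1

/-- the numerical estimate of one step -/
lemma step_num {K C W y z D h ea eb eS ec el U Δ r ε : ℝ} (hK : 1 ≤ K) (hC : 1 ≤ C) (hW : 1 ≤ W)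
    (hy : 1 ≤ y) (hε : y⁻¹ ≤ ε) (hz : z ≤ ε) (hD0 : 0 < D) (hD : D * y ^ 8 ≤ 1)
    (hh : h * y ^ 4 ≤ 1) (h0 : 0 < h) (h1 : h ≤ 1) (ea0 : 0 < ea) (hea : ea ≤ W * y)
    (heb : eb ≤ W * y) (eS1 : 1 ≤ eS) (heS : eS ≤ W * y) (ec0 : 0 < ec)
    (hec : ec * eS ≤ el * z) (el0 : 0 < el)
    (hU : U ≤ C * eS * D) (hr : r ≤ C * eb * D ^ 2) (Δ0 : 0 ≤ Δ)
    (hΔ : Δ ≤ U + r) :
    ea * Δ ≤ 2 * C * W ^ 2 * ε ∧
    K * (ec * 0 + ea * Δ + ea ^ 2 * Δ ^ 2) ≤ K * D * (2 * C * W ^ 2 + 4 * C ^ 2 * W ^ 4) * y ^ 2 ∧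
    ∀ V f : ℝ, V ≤ U + D * h → f ≤ r + D * h →
      K * (ec * V + ea * f + ea ^ 2 * Δ ^ 2) ≤
        K * D * ((C + 1) * el + W * (C * W + 1) + 4 * C ^ 2 * W ^ 4) * ε := by
  have y0 : 0 < y := by linarith
  have hi : 0 < y⁻¹ := inv_pos.2 y0
  have hi1 : y⁻¹ ≤ 1 := inv_le_one_of_one_le₀ hy
  have ε0 : 0 < ε := hi.trans_le hε
  have hyy : y * y⁻¹ = 1 := mul_inv_cancel₀ y0.ne'
  have pw : ∀ (x : ℝ) (p q : ℕ), 0 ≤ x → x * y ^ (p + q + 1) ≤ 1 → x * y ^ p ≤ ε := by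
    intro x p q hx H
    have e1 : x * y ^ p * y ≤ 1 := by
      calc x * y ^ p * y = x * y ^ p * y * 1 := by ring
        _ ≤ x * y ^ p * y * y ^ q := by gcongr; exact one_le_pow₀ hy
        _ = x * y ^ (p + q + 1) := by ring
        _ ≤ 1 := H
    calc x * y ^ p = x * y ^ p * y * y⁻¹ := by rw [mul_assoc (x * y ^ p), hyy, mul_one]
      _ ≤ 1 * y⁻¹ := by gcongr
      _ ≤ ε := by simpa using hε
  have D1 : D ≤ 1 := by
    calc D = D * 1 := by ring
      _ ≤ D * y ^ 8 := by gcongr; exact one_le_pow₀ hy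
      _ ≤ 1 := hD
  have D2 : D * y ^ 2 ≤ ε := pw D 2 5 hD0.le hD
  have D4 : D * y ^ 4 ≤ ε := pw D 4 3 hD0.le hD
  have D4' : D * y ^ 4 ≤ y ^ 2 := by
    calc D * y ^ 4 = D * y ^ 4 * 1 := by ring
      _ ≤ D * y ^ 4 * y ^ 4 := by gcongr; exact one_le_pow₀ hy
      _ = D * y ^ 8 := by ring
      _ ≤ 1 := hD
      _ ≤ y ^ 2 := one_le_pow₀ hy
  have h1' : h * y ^ 1 ≤ ε := pw h 1 2 h0.le hh
  have hΔ' : Δ ≤ 2 * C * (W * y) * D := by
    have a1 : C * eS * D ≤ C * (W * y) * D := by gcongr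
    have a2 : C * eb * D ^ 2 ≤ C * (W * y) * D := by
      calc C * eb * D ^ 2 = C * eb * D * D := by ring
        _ ≤ C * (W * y) * D * 1 := by gcongr
        _ = _ := by ring
    linarith
  have e1 : ea * Δ ≤ 2 * C * W ^ 2 * (D * y ^ 2) := by
    calc ea * Δ ≤ (W * y) * (2 * C * (W * y) * D) := by gcongr
      _ = _ := by ring
  have e2 : ea ^ 2 * Δ ^ 2 ≤ 4 * C ^ 2 * W ^ 4 * D * (D * y ^ 4) := by
    calc ea ^ 2 * Δ ^ 2 = (ea * Δ) ^ 2 := by ring
      _ ≤ (2 * C * W ^ 2 * (D * y ^ 2)) ^ 2 := by gcongr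
      _ = _ := by ring
  refine ⟨e1.trans (by gcongr), ?_, fun V f hV hf => ?_⟩
  · have : ea ^ 2 * Δ ^ 2 ≤ 4 * C ^ 2 * W ^ 4 * D * y ^ 2 := e2.trans (by gcongr)
    calc K * (ec * 0 + ea * Δ + ea ^ 2 * Δ ^ 2)
        ≤ K * (ec * 0 + 2 * C * W ^ 2 * (D * y ^ 2) + 4 * C ^ 2 * W ^ 4 * D * y ^ 2) := by gcongr
      _ = _ := by ring
  · have t1 : ec * V ≤ D * ((C + 1) * el) * ε := by
      have : V ≤ (C + 1) * eS * D := by
        have : D * h ≤ eS * D := by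
          calc D * h ≤ D * 1 := by gcongr
            _ ≤ D * eS := by gcongr
            _ = _ := by ring
        nlinarith
      calc ec * V ≤ ec * ((C + 1) * eS * D) := by gcongr
        _ = (C + 1) * D * (ec * eS) := by ring
        _ ≤ (C + 1) * D * (el * ε) :=
            mul_le_mul_of_nonneg_left (hec.trans (by gcongr)) (by positivity)
        _ = _ := by ring
    have t2 : ea * f ≤ D * (W * (C * W + 1)) * ε := by
      calc ea * f ≤ (W * y) * (C * (W * y) * D ^ 2 + D * h) := by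
            have : f ≤ C * (W * y) * D ^ 2 + D * h := by
              have : C * eb * D ^ 2 ≤ C * (W * y) * D ^ 2 := by gcongr
              linarith
            calc ea * f ≤ ea * (C * (W * y) * D ^ 2 + D * h) := by gcongr
              _ ≤ _ := by gcongr
        _ = D * W * (C * W * (D * y ^ 2) + h * y ^ 1) := by ring
        _ ≤ D * W * (C * W * ε + ε) := by gcongr
        _ = _ := by ring
    have t3 : ea ^ 2 * Δ ^ 2 ≤ D * (4 * C ^ 2 * W ^ 4) * ε := by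
      calc _ ≤ 4 * C ^ 2 * W ^ 4 * D * (D * y ^ 4) := e2
        _ ≤ 4 * C ^ 2 * W ^ 4 * D * ε := by gcongr
        _ = _ := by ring
    calc K * (ec * V + ea * f + ea ^ 2 * Δ ^ 2) ≤ K * (D * ((C + 1) * el) * ε +
          D * (W * (C * W + 1)) * ε + D * (4 * C ^ 2 * W ^ 4) * ε) := by gcongr
      _ = _ := by ring

/-- the linear inequalities between the exponents -/
lemma lin_num {Λ χ κ κ0 m0 σ s T S j : ℝ} (hΛ : 0 < Λ) (hχ : 0 < χ) (m00 : 0 < m0)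
    (hσ : Λ * σ = m0 / 16) (s1 : 2 * s ≤ κ) (s2 : 2 * s ≤ κ0) (s3 : (2 * Λ + 2) * s ≤ m0 / 16)
    (s4 : Λ * s ≤ χ * σ / 2) (s0 : 0 < s) (T0 : 0 ≤ T) (a4 : 1 ≤ s * T) (S0 : 0 ≤ S)
    (S2 : S ≤ s * T + 1) (j1 : σ * T ≤ j) (j2 : j ≤ σ * T + 1) :
    S ≤ κ * T ∧ S ≤ κ0 * T ∧ Λ * (S + j) ≤ m0 / 8 * T + (2 * Λ + 2) ∧
    (2 * Λ + 2) * S ≤ m0 / 8 * T + (2 * Λ + 2) ∧ Λ * S ≤ m0 / 8 * T + (2 * Λ + 2) ∧
    -(χ * (S + j)) + Λ * S ≤ Λ + -(χ * σ / 2 * T) := by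
  have c1 := mul_le_mul_of_nonneg_right s1 T0
  have c2 := mul_le_mul_of_nonneg_right s2 T0
  have c3 := mul_le_mul_of_nonneg_right s3 T0
  have c4 := mul_le_mul_of_nonneg_right s4 T0
  have c5 := mul_le_mul_of_nonneg_left S2 hΛ.le
  have c6 := mul_le_mul_of_nonneg_left j2 hΛ.le
  have c7 := mul_le_mul_of_nonneg_left j1 hχ.le
  have c8 : Λ * σ * T = m0 / 16 * T := by rw [hσ]
  have c9 := mul_nonneg hχ.le S0
  have c10 := mul_nonneg m00.le T0
  have c11 := mul_nonneg (mul_nonneg hΛ.le s0.le) T0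
  refine ⟨by linarith, by linarith, by linarith, by linarith, by linarith, by linarith⟩

lemma half_num {R K : ℝ} (hR : 0 < R) (hK : 1 ≤ K) : R / (2 * K) ≤ R / K ∧ R / (2 * K) < R := by
  refine ⟨by gcongr; linarith, ?_⟩
  rw [div_lt_iff₀ (by positivity)]
  nlinarith


end Crest.Agent.N221.NC
end
end

-- ▼ part N221/NC/CoreF
section

/-! Row 221, block NC (helper28): assembly of the core without variation. -/

set_option autoImplicit false

open Set Metric Filter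
open scoped ContDiff Topology

noncomputable section

namespace Crest.Agent.N221.NC

lemma lin_num' {Λ χ σ s T S j : ℝ} (hΛ : 0 < Λ) (hχ : 0 < χ)
    (s4 : (2 * Λ + 2) * s ≤ χ * σ / 2) (T0 : 0 ≤ T) (S0 : 0 ≤ S)
    (S2 : S ≤ s * T + 1) (j1 : σ * T ≤ j) :
    -(χ * (S + j)) + (2 * Λ + 2) * S ≤ (2 * Λ + 2) + -(χ * σ / 2 * T) := by
  have c4 := mul_le_mul_of_nonneg_right s4 T0
  have c5 := mul_le_mul_of_nonneg_left S2 hΛ.le
  have c7 := mul_le_mul_of_nonneg_left j1 hχ.le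
  have c9 := mul_nonneg hχ.le S0
  linarith

theorem coreF (hE : EscS) (hC : CmpF) (hA : AngF) (hV : AvgS) : CoreF := by
  intro E G _ _ _ _ _ _ k hk η hη
  have : CompleteSpace E := FiniteDimensional.complete ℝ E
  obtain ⟨κ, γ, N, T1, κ0, γ0, hA⟩ := hA E G k hk
  have hΛ := hk.Λ
  have hχ := hk.χ
  have hc1 := hk.c1
  have hK := hk.K
  have hR := hk.R
  obtain ⟨m0, m00, m01, m02⟩ : ∃ m0 : ℝ, 0 < m0 ∧ m0 ≤ k.c1 ∧ m0 ≤ γ :=
    ⟨min k.c1 γ, lt_min hc1 γ0, min_le_left _ _, min_le_right _ _⟩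
  obtain ⟨σ, σ0, hσ⟩ : ∃ σ : ℝ, 0 < σ ∧ k.Λ * σ = m0 / 16 :=
    ⟨m0 / (16 * k.Λ), by positivity, by field_simp⟩
  obtain ⟨s, s0, s1, s2, s3, s4⟩ : ∃ s : ℝ, 0 < s ∧ 2 * s ≤ κ ∧ 2 * s ≤ k.κ0 ∧
      (2 * k.Λ + 2) * s ≤ m0 / 16 ∧ (2 * k.Λ + 2) * s ≤ k.χ * σ / 2 := by
    have := hk.κ0
    refine ⟨min (min (κ / 2) (k.κ0 / 2)) (min (m0 / 16 / (2 * k.Λ + 2)) (k.χ * σ / 2 / (2 * k.Λ + 2))),
      by positivity, ?_, ?_, ?_, ?_⟩
    · linarith [min_le_left (min (κ / 2) (k.κ0 / 2))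
        (min (m0 / 16 / (2 * k.Λ + 2)) (k.χ * σ / 2 / (2 * k.Λ + 2))), min_le_left (κ / 2) (k.κ0 / 2)]
    · linarith [min_le_left (min (κ / 2) (k.κ0 / 2))
        (min (m0 / 16 / (2 * k.Λ + 2)) (k.χ * σ / 2 / (2 * k.Λ + 2))), min_le_right (κ / 2) (k.κ0 / 2)]
    · rw [mul_comm, ← le_div_iff₀ (by positivity)]
      exact (min_le_right _ _).trans (min_le_left _ _)
    · rw [mul_comm, ← le_div_iff₀ (by positivity)]
      exact (min_le_right _ _).trans (min_le_right _ _)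
  obtain ⟨g', g0, T2, hE⟩ := hE k hk s s0
  obtain ⟨C, C1, T3, hC⟩ := hC k hk s s0
  set W := Real.exp (2 * k.Λ + 2) with hW
  have W1 : 1 ≤ W := Real.one_le_exp (by positivity)
  set M1 := (C + 1) * W + W * (C * W + 1) + 4 * C ^ 2 * W ^ 4 with hM1
  set M2 := 2 * C * W ^ 2 + 4 * C ^ 2 * W ^ 4 with hM2
  have M10 : 0 < M1 := by positivity
  have M20 : 0 < M2 := by positivity
  obtain ⟨ε, ε0, ε1, ε2, ε3, ε4⟩ : ∃ ε : ℝ, 0 < ε ∧ ε ≤ 1 ∧ ε ≤ η ∧
      2 * C * W ^ 2 * ε ≤ k.R / k.K ∧ k.K ^ 2 * (M1 + N * M2) * ε ≤ η := by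
    refine ⟨min (min 1 η) (min (k.R / k.K / (2 * C * W ^ 2)) (η / (k.K ^ 2 * (M1 + N * M2)))),
      by positivity, (min_le_left _ _).trans (min_le_left _ _),
      (min_le_left _ _).trans (min_le_right _ _), ?_, ?_⟩
    · rw [mul_comm, ← le_div_iff₀ (by positivity)]
      exact (min_le_right _ _).trans (min_le_left _ _)
    · rw [mul_comm, ← le_div_iff₀ (by positivity)]
      exact (min_le_right _ _).trans (min_le_right _ _)
  obtain ⟨T0, hT0⟩ := eventually_atTop.1 ((((((ev_exp (p := m0 / 8) (by positivity) ε0).and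
    (ev_exp (p := k.χ * σ / 2) (by positivity) ε0)).and
    (ev_exp g0 (show 0 < k.R / (2 * k.K) by positivity))).and (ev_lin s0)).and
    (eventually_ge_atTop T1)).and ((eventually_ge_atTop T2).and (eventually_ge_atTop T3)))
  refine ⟨T0, fun T hT X _ n ν Φ H Lf x A P hn hx hl => ?_⟩
  obtain ⟨⟨⟨⟨⟨a1, a2⟩, a3⟩, a4⟩, a5⟩, a6, a7⟩ := hT0 T hT
  have T0' : (0 : ℝ) ≤ T := Nat.cast_nonneg T
  obtain ⟨S, S1, S2⟩ : ∃ S : ℕ, s * T ≤ S ∧ (S : ℝ) ≤ s * T + 1 :=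
    ⟨⌈s * T⌉₊, Nat.le_ceil _, (Nat.ceil_lt_add_one (by positivity)).le⟩
  obtain ⟨j, j1, j2⟩ : ∃ j : ℕ, σ * T ≤ j ∧ (j : ℝ) ≤ σ * T + 1 :=
    ⟨⌈σ * T⌉₊, Nat.le_ceil _, (Nat.ceil_lt_add_one (by positivity)).le⟩
  have S0 : (0 : ℝ) ≤ S := Nat.cast_nonneg S
  obtain ⟨Sκ, Sκ0, b1, b2, -, -⟩ := lin_num hΛ hχ m00 hσ s1 s2 s3
    (le_trans (mul_le_mul_of_nonneg_right (by linarith) s0.le) s4) s0 T0' a4 S0 S2 j1 j2
  have b4 := lin_num' hΛ hχ s4 T0' S0 S2 j1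
  set y := Real.exp (m0 / 8 * T) with hy
  have y1 : 1 ≤ y := Real.one_le_exp (by positivity)
  have yi : y⁻¹ ≤ ε := by rw [hy, ← Real.exp_neg]; exact a1
  have yp : ∀ (p : ℝ) (q : ℕ), m0 / 8 * q ≤ p → Real.exp (-(p * T)) * y ^ q ≤ 1 := by
    intro p q h
    rw [hy, ← Real.exp_nat_mul, ← Real.exp_add, Real.exp_le_one_iff]
    linarith [mul_le_mul_of_nonneg_right h T0']
  have D0 : 0 < k.D T := Real.exp_pos _
  have hD : k.D T * y ^ 8 ≤ 1 := yp k.c1 8 (by push_cast; linarith)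
  have hh : Real.exp (-(k.c1 / 2 * T)) * y ^ 4 ≤ 1 := yp (k.c1 / 2) 4 (by push_cast; linarith)
  have hWy : ∀ p : ℝ, p ≤ m0 / 8 * T + (2 * k.Λ + 2) → Real.exp p ≤ W * y := by
    intro p h
    rw [hW, hy, ← Real.exp_add]
    exact Real.exp_le_exp.2 (by linarith)
  have hea : Real.exp (k.Λ * (S + j)) ≤ W * y := hWy _ b1
  have heb : Real.exp ((2 * k.Λ + 2) * S) ≤ W * y := hWy _ b2
  have hec : Real.exp (-(k.χ * (S + j))) * Real.exp ((2 * k.Λ + 2) * S) ≤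
      W * Real.exp (-(k.χ * σ / 2 * T)) := by
    rw [hW, ← Real.exp_add, ← Real.exp_add]
    exact Real.exp_le_exp.2 b4
  have hh1 : Real.exp (-(k.c1 / 2 * T)) ≤ 1 :=
    Real.exp_le_one_iff.2 (neg_nonpos.2 (by positivity))
  -- all curves are tiny after time `S`
  have tiny : ∀ i ≤ n, ∀ τ ∈ Icc (0 : ℝ) 1, ∀ S', S ≤ S' → S' ≤ T →
      ‖x i S' τ‖ ≤ k.R / k.K ∧ ‖x i S' τ‖ ≤ k.R / 2 := by
    intro i hi τ hτ S' h1 h2
    have h3 := (hE T a6 E ν _ _ _ (hx i hi) S' (S1.trans (by exact_mod_cast h1)) h2 τ hτ).trans a3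
    exact ⟨h3.trans (half_num hR hK).1, h3.trans
      (div_le_div_of_nonneg_left hR.le two_pos (by linarith))⟩
  -- the grid
  set ρ := Real.exp (-(γ * T)) with hρ
  have ρ0 : 0 < ρ := Real.exp_pos _
  set m := ⌈Real.exp (γ / 2 * T)⌉₊ with hm
  have m0' : 0 < m := Nat.ceil_pos.2 (Real.exp_pos _)
  have hgrid : ∀ l < m, 1 - ε ≤ 1 - (l : ℝ) * ρ ∧ 1 - (l : ℝ) * ρ ∈ Icc (0 : ℝ) 1 := by
    intro l hl
    have h1 : (l : ℝ) < Real.exp (γ / 2 * T) := Nat.lt_ceil.1 hl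
    have h2 : (l : ℝ) * ρ ≤ ε := by
      calc (l : ℝ) * ρ ≤ Real.exp (γ / 2 * T) * ρ := by gcongr
        _ = Real.exp (-(γ / 2 * T)) := by rw [hρ, ← Real.exp_add]; congr 1; ring
        _ ≤ Real.exp (-(m0 / 8 * T)) := Real.exp_le_exp.2 (by
            linarith [mul_le_mul_of_nonneg_right m02 T0', mul_nonneg m00.le T0'])
        _ ≤ ε := a1
    have h3 : 0 ≤ (l : ℝ) * ρ := by positivity
    exact ⟨by linarith, by linarith, by linarith⟩
  obtain ⟨l, hl1, hsum⟩ := hV n m N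
    (fun i l => dist (P (i + 1) j (1 - l * ρ)) (P i j (1 - l * ρ)))
    (fun i l => ¬ ∃ a, ‖H i S (x (i + 1) S (1 - l * ρ)) - x i S (1 - l * ρ) -
      A i S (1 - l * ρ) a‖ ≤ k.D T * Real.exp (-(k.c1 / 2 * T)))
    (k.K * k.D T * M1 * ε) (k.K * k.D T * M2 * y ^ 2) m0' (by positivity) (by positivity)
    (fun i hi t ht => by
      by_contra hN
      have inj : Function.Injective fun l : ℕ => 1 - (l : ℝ) * ρ := fun l l' e => by
        have : (l : ℝ) * ρ = l' * ρ := by dsimp only at e; linarith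
        exact_mod_cast mul_right_cancel₀ ρ0.ne' this
      obtain ⟨τ, hτ, h⟩ := hA T a5 ν _ _ _ _ _ _ _ _ (hx i hi.le) (hx (i + 1) hi) (hl i hi).1
        (hl i hi).2.1 (t.map ⟨_, inj⟩) (by rw [Finset.card_map]; omega)
        (fun τ hτ => by
          obtain ⟨l, h1, rfl⟩ := Finset.mem_map.1 hτ
          exact (hgrid l (ht l h1).1).2)
        (fun τ hτ τ' hτ' ne => by
          obtain ⟨l, h1, rfl⟩ := Finset.mem_map.1 hτ
          obtain ⟨l', h2, rfl⟩ := Finset.mem_map.1 hτ'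
          have ne' : (l' : ℤ) - l ≠ 0 := fun e => ne (by
            have : l = l' := by omega
            rw [this])
          have h3 : (1 : ℝ) ≤ |(l' : ℝ) - l| := by exact_mod_cast Int.one_le_abs ne'
          have : (1 - (l : ℝ) * ρ) - (1 - (l' : ℝ) * ρ) = (l' - l) * ρ := by ring
          show ρ ≤ |(1 - (l : ℝ) * ρ) - (1 - (l' : ℝ) * ρ)|
          rw [this, abs_mul, abs_of_pos ρ0]
          exact le_mul_of_one_le_left ρ0.le h3)
      obtain ⟨l, h1, rfl⟩ := Finset.mem_map.1 hτ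
      exact (ht l h1).2 (h S Sκ fun i' h2 h3 =>
        ⟨(tiny i hi.le _ (hgrid l (ht l h1).1).2 i' h2 h3).2,
          (tiny (i + 1) hi _ (hgrid l (ht l h1).1).2 i' h2 h3).2⟩))
    (fun i hi l hl' => by
      obtain ⟨hv, hlk, hb⟩ := hl i hi
      have hτ := (hgrid l hl').2
      set τ := 1 - (l : ℝ) * ρ
      have c1 := hC T a7 E G ν _ _ _ _ _ _ _ _ (hx i hi.le) (hx (i + 1) hi) hlk S S1 Sκ0 τ hτ
      obtain ⟨n1, n2, n3⟩ := step_num (r := 0) hK C1 W1 y1 yi a2 D0 hD hh (Real.exp_pos _)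
        hh1 (Real.exp_pos _) hea heb (Real.one_le_exp (by positivity)) heb (Real.exp_pos _) hec
        (by positivity) c1 (by positivity) (norm_nonneg _) (add_zero _).ge
      have hb' := hb τ hτ S j Sκ0
        (fun S' h1 h2 => ⟨(tiny i hi.le τ hτ S' h1 h2).1, (tiny (i + 1) hi τ hτ S' h1 h2).1⟩)
        (n1.trans ε3)
      have e2 : Real.exp (2 * k.Λ * (S + j)) = Real.exp (k.Λ * (S + j)) ^ 2 := by
        rw [← Real.exp_nat_mul]; congr 1; push_cast; ring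
      rw [e2] at hb'
      refine ⟨?_, fun hg => ?_⟩
      · have h := hb' 0
        rw [map_zero, norm_zero, sub_zero] at h
        exact h.trans n2
      · obtain ⟨a, ha⟩ := not_not.1 hg
        refine (hb' a).trans (n3 _ _ ?_ ?_)
        · have := norm_le_norm_add_norm_sub (H i S (x (i + 1) S τ) - x i S τ) (A i S τ a)
          linarith
        · linarith)
  refine ⟨1 - l * ρ, (hgrid l hl1).2, by linarith [(hgrid l hl1).1], j, ?_⟩
  have tri := dist_le_range_sum_dist (fun i => P i j (1 - l * ρ)) n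
  rw [dist_comm] at tri
  simp only [dist_comm (P _ j _) (P (_ + 1) j _)] at tri
  refine tri.trans (hsum.trans ?_)
  have hm4 : y ^ 4 ≤ m := by
    refine le_trans ?_ (Nat.le_ceil _)
    rw [hy, ← Real.exp_nat_mul]
    exact Real.exp_le_exp.2 (by push_cast; linarith [mul_le_mul_of_nonneg_right m02 T0'])
  have y0 : 0 < y := by linarith
  have q1 : y ^ 2 / m ≤ ε := by
    rw [div_le_iff₀ (by exact_mod_cast m0')]
    calc y ^ 2 = y⁻¹ * y ^ 3 := by field_simp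
      _ ≤ ε * y ^ 4 := by gcongr; norm_num
      _ ≤ ε * m := by gcongr
  calc (n : ℝ) * (k.K * k.D T * M1 * ε) + n * N * (k.K * k.D T * M2 * y ^ 2) / m
      = n * k.D T * k.K * (M1 * ε + N * M2 * (y ^ 2 / m)) := by ring
    _ ≤ k.K * k.K * (M1 * ε + N * M2 * ε) := by gcongr
    _ = k.K ^ 2 * (M1 + N * M2) * ε := by ring
    _ ≤ η := ε4

end Crest.Agent.N221.NC
end
end

-- ▼ part N221/NC/Ang
section

/-! Row 221, block NC, N4: among `N + 1` separated parameters one has a small angle (helper32). -/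

set_option autoImplicit false

open Set Metric
open scoped ContDiff Topology

noncomputable section

namespace Crest.Agent.N221.NC

namespace AngP

theorem jets {Z V : Type} [NormedAddCommGroup Z] [NormedSpace ℝ Z] [FiniteDimensional ℝ Z]
    [NormedAddCommGroup V] [NormedSpace ℝ V] {Γ : Z → V} (h : ContDiff ℝ ∞ Γ) :
    ∃ e : ℕ → ℝ, ∀ j, ∀ z ∈ closedBall (0 : Z) 1, ‖iteratedFDeriv ℝ j Γ z‖ ≤ e j := by
  have := FiniteDimensional.proper_real Z
  choose e he using fun j : ℕ => (isCompact_closedBall (0 : Z) 1).exists_bound_of_continuousOn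
    (h.continuous_iteratedFDeriv (m := j) (by exact_mod_cast le_top)).continuousOn
  exact ⟨e, he⟩

/-- one of the separated points has `g` comparable to its maximum -/
theorem good (hR : GridS) {V : Type} [NormedAddCommGroup V] [NormedSpace ℝ V] [CompleteSpace V]
    {N : ℕ} {g : ℝ → ℝ} {Q : ℝ → V} {s : Finset ℝ} {ρ ε l a b : ℝ} (ρ0 : 0 < ρ) (ρ1 : ρ ≤ 1)
    (l0 : 0 < l) (l1 : l ≤ 1) (ε0 : 0 < ε) (a0 : 0 ≤ a) (b0 : 0 ≤ b)
    (sg : ∀ t ∈ Icc (0 : ℝ) 1, ContDiffAt ℝ ∞ g t) (sQ : ∀ t ∈ Icc (0 : ℝ) 1, ContDiffAt ℝ ∞ Q t)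
    (dg : ∀ t ∈ Icc (0 : ℝ) 1, |iteratedDeriv (N + 1) g t| ≤ ε)
    (dQ : ∀ t ∈ Icc (0 : ℝ) 1, ‖iteratedDeriv (N + 1) Q t‖ ≤ ε)
    (fl : ∀ t ∈ Icc (0 : ℝ) 1, ε ≤ a * g t) (kn : ∀ t ∈ Icc (0 : ℝ) l, ‖Q t‖ ≤ b * g t)
    (sm : 2 * (N + 2) * a ≤ ρ ^ N) (hs : N < s.card) (hI : ∀ t ∈ s, t ∈ Icc (0 : ℝ) 1)
    (sep : ∀ t ∈ s, ∀ t' ∈ s, t ≠ t' → ρ ≤ |t - t'|) :
    ∃ τ ∈ s, 0 < g τ ∧ ρ ^ N * ‖Q τ‖ ≤ 4 * (N + 1) * ((6 / l) ^ N * (b + a) + a) * g τ := by
  have g0 : ∀ t ∈ Icc (0 : ℝ) 1, 0 < g t := fun t ht =>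
    lt_of_not_ge fun h => (ε0.trans_le (fl t ht)).not_ge (mul_nonpos_of_nonneg_of_nonpos a0 h)
  obtain ⟨t0, h0, hM⟩ := isCompact_Icc.exists_isMaxOn (nonempty_Icc.2 zero_le_one)
    (fun t ht => (sg t ht).continuousAt.continuousWithinAt : ContinuousOn g (Icc 0 1))
  have hM' : ∀ t ∈ Icc (0 : ℝ) 1, g t ≤ g t0 := fun t ht => hM ht
  have M0 := g0 t0 h0
  have e1 := fl t0 h0
  have r0 : 0 < ρ ^ N := pow_pos ρ0 N
  have r1 : ρ ^ N ≤ 1 := pow_le_one₀ ρ0.le ρ1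
  have hQ : ∀ t ∈ Icc (0 : ℝ) 1, ‖Q t‖ ≤ ((6 / l) ^ N * (b + a) + a) * g t0 := fun t ht => by
    refine (PS.rmS V N Q l (b * g t0) ε l0 l1 sQ (fun u hu => (kn u hu).trans
      (mul_le_mul_of_nonneg_left (hM' u ⟨hu.1, hu.2.trans l1⟩) b0)) dQ t ht).trans ?_
    calc _ ≤ (6 / l) ^ N * (b * g t0 + a * g t0) + a * g t0 := by gcongr
      _ = _ := by ring
  by_contra hc
  push Not at hc
  obtain ⟨s', hs', hcard⟩ := Finset.exists_subset_card_eq (n := N + 1) (s := s) hs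
  have N0 : (0 : ℝ) < N + 1 := by positivity
  have hG := hR N g s' ρ (ρ ^ N * g t0 / (4 * (N + 1))) ε ρ0 ρ1 sg dg hcard (fun t ht => ⟨hI t (hs' ht), ?_⟩)
    (fun t ht t' ht' => sep t (hs' ht) t' (hs' ht')) t0 h0
  · rw [abs_of_pos M0] at hG
    have h1 : (N + 1) * (ρ ^ N * g t0 / (4 * (N + 1)) + ε) / ρ ^ N = g t0 / 4 + (N + 1) * ε / ρ ^ N := by
      field_simp
    have h2 : ε ≤ ε / ρ ^ N := by rw [le_div_iff₀ r0]; nlinarith
    have h3 : (N + 2) * (ε / ρ ^ N) ≤ g t0 / 2 := by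
      rw [← mul_div_assoc, div_le_iff₀ r0]
      have : (N + 2) * ε ≤ (N + 2) * (a * g t0) := by gcongr
      nlinarith
    rw [h1, mul_div_assoc] at hG
    linarith
  · have ht1 := hI t (hs' ht)
    have gt := g0 t ht1
    have h1 := hc t (hs' ht) gt
    have h2 := mul_le_mul_of_nonneg_left (hQ t ht1) r0.le
    rw [abs_of_pos gt, le_div_iff₀ (by positivity)]
    have c0 : 0 ≤ (6 / l) ^ N * (b + a) + a := by positivity
    generalize (6 / l) ^ N * (b + a) + a = c at *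
    by_contra hn
    push Not at hn
    nlinarith [mul_le_mul_of_nonneg_left hn.le c0]

theorem big (c C : ℝ) (hc : 0 < c) : ∃ T0 : ℕ, ∀ T : ℕ, T0 ≤ T → C ≤ Real.exp (c * T) := by
  obtain ⟨T0, h⟩ := exists_nat_ge (C / c)
  refine ⟨T0, fun T hT => ?_⟩
  have h1 : (T0 : ℝ) ≤ T := by exact_mod_cast hT
  rw [div_le_iff₀ hc] at h
  nlinarith [Real.add_one_le_exp (c * T)]

/-- the numerical end -/
theorem num {w y lam D u L ρ n r b c e d q v : ℝ} (w0 : 0 ≤ w) (g0 : 0 < y) (l0 : 0 < lam) (D0 : 0 < D)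
    (u1 : 1 ≤ u) (L1 : 1 ≤ L) (r0 : 0 < ρ) (c1 : 0 ≤ b) (c2 : 0 ≤ c) (c3 : 0 ≤ r) (c4 : 0 ≤ n) (_ : 0 < e)
    (Du : D * u ^ 8 = 1) (ρu : 1 ≤ ρ * u) (Lu : L * L ≤ e * u) (ed : d * u ^ 4 = 1)
    (h4 : n * (r * (b + c) + c) * e ≤ u) (ha : y * (lam * w) ≤ q)
    (hQ : ρ * q ≤ n * (r * (b * (lam * D ^ 2 * L) + c * (lam * D ^ 2)) + c * (lam * D ^ 2)) * y)
    (h1 : v ≤ L * w) : v ≤ D * d := by
  have h3 : ρ * w ≤ n * (r * (b + c) + c) * (D ^ 2 * L) := by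
    refine le_of_mul_le_mul_left ?_ (mul_pos g0 l0)
    calc y * lam * (ρ * w) = ρ * (y * (lam * w)) := by ring
      _ ≤ n * (r * (b * (lam * D ^ 2 * L) + c * (lam * D ^ 2)) + c * (lam * D ^ 2)) * y :=
        (mul_le_mul_of_nonneg_left ha r0.le).trans hQ
      _ ≤ n * (r * (b * (lam * D ^ 2 * L) + c * (lam * D ^ 2 * L)) + c * (lam * D ^ 2 * L)) * y := by
        have : lam * D ^ 2 ≤ lam * D ^ 2 * L := le_mul_of_one_le_right (by positivity) L1
        gcongr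
      _ = _ := by ring
  have m0 : 0 ≤ n * (r * (b + c) + c) := by positivity
  generalize n * (r * (b + c) + c) = m at *
  have u0 : 0 < u := by positivity
  refine h1.trans (le_of_mul_le_mul_right ?_ (pow_pos u0 4))
  rw [mul_assoc D, ed, mul_one]
  calc _ ≤ L * w * u ^ 4 * (ρ * u) := le_mul_of_one_le_right (by positivity) ρu
    _ = L * (ρ * w) * u ^ 5 := by ring
    _ ≤ L * (m * (D ^ 2 * L)) * u ^ 5 := by gcongr
    _ = m * (L * L) * (D ^ 2 * u ^ 5) := by ring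
    _ ≤ m * (e * u) * (D ^ 2 * u ^ 5) := by gcongr
    _ = m * e * (D ^ 2 * u ^ 6) := by ring
    _ ≤ u * (D ^ 2 * u ^ 6) := by gcongr
    _ ≤ u * (D ^ 2 * u ^ 6) * u := le_mul_of_one_le_right (by positivity) u1
    _ = D * (D * u ^ 8) := by ring
    _ = D := by rw [Du, mul_one]

end AngP


end Crest.Agent.N221.NC
end
end

-- ▼ part N221/NC/AngF1
section

/-! Row 221, block NC, N4 without the variation: the angle of the difference of two curves (helper32). -/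

set_option autoImplicit false

open Set Metric
open scoped ContDiff Topology Nat

noncomputable section

namespace Crest.Agent.N221.NC

namespace AngP

/-- jets of `Q ∘ f`, uniformly in `f` -/
theorem comp_jets {Y V : Type} [NormedAddCommGroup Y] [NormedSpace ℝ Y] [FiniteDimensional ℝ Y]
    [NormedAddCommGroup V] [NormedSpace ℝ V] {Q : Y → V} (hQ : ContDiff ℝ ∞ Q) (ρ : ℝ) (c : ℕ → ℝ) :
    ∃ e : ℕ → ℝ, ∀ (Z : Type) [NormedAddCommGroup Z] [NormedSpace ℝ Z] (f : Z → Y) (U : Set Z), IsOpen U →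
      ContDiffOn ℝ ∞ f U → ∀ z ∈ U, ‖f z‖ ≤ ρ → (∀ j, 1 ≤ j → ‖iteratedFDeriv ℝ j f z‖ ≤ c j) →
      ∀ j, ‖iteratedFDeriv ℝ j (fun z => Q (f z)) z‖ ≤ e j := by
  have := FiniteDimensional.proper_real Y
  choose b hb using fun j : ℕ => (isCompact_closedBall (0 : Y) ρ).exists_bound_of_continuousOn
    (hQ.continuous_iteratedFDeriv (m := j) (by exact_mod_cast le_top)).continuousOn
  refine ⟨fun n => n ! * (∑ i ∈ Finset.range (n + 1), |b i|) * (1 + ∑ i ∈ Finset.range (n + 1), |c i|) ^ n,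
    fun Z _ _ f U hU hf z hz h0 h1 n => ?_⟩
  rw [← iteratedFDerivWithin_of_isOpen n hU hz]
  refine norm_iteratedFDerivWithin_comp_le (t := univ) hQ.contDiffOn hf (Ext.le_inf n) uniqueDiffOn_univ
    hU.uniqueDiffOn (mapsTo_univ _ _) hz (fun i hi => ?_) fun i i1 hi => ?_
  · rw [iteratedFDerivWithin_univ]
    exact ((hb i _ (mem_closedBall_zero_iff.2 h0)).trans (le_abs_self _)).trans
      (Finset.single_le_sum (f := fun i => |b i|) (fun _ _ => abs_nonneg _) (Finset.mem_range_succ_iff.2 hi))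
  · rw [iteratedFDerivWithin_of_isOpen i hU hz]
    have h2 : 0 ≤ ∑ i ∈ Finset.range (n + 1), |c i| := Finset.sum_nonneg fun _ _ => abs_nonneg _
    have h3 := ((h1 i i1).trans (le_abs_self _)).trans
      (Finset.single_le_sum (f := fun i => |c i|) (fun _ _ => abs_nonneg _) (Finset.mem_range_succ_iff.2 hi))
    exact (h3.trans (by linarith)).trans (le_self_pow₀ (by linarith) (by omega))

/-- growth of a transported vector -/
theorem tr_le {E F : Type} [NormedAddCommGroup E] [NormedSpace ℝ E] [NormedAddCommGroup F] [NormedSpace ℝ F]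
    {k : Cst} {T : ℕ} {ν : E → ℝ} {Φ : ℕ → E → E} {Lf : ℕ → Set E} {x : ℕ → ℝ → E}
    {A : ℕ → ℝ → F →L[ℝ] E} (hx : Crv k T ν Φ Lf x) (hA : Tr k T Φ x A) (τ : ℝ) {S S' : ℕ} (h : S ≤ S')
    (h' : S' ≤ T) (hb : ∀ i, S < i → i ≤ S' → x i τ ∈ ball (0 : E) k.R) (w : F) :
    ‖A S τ w‖ ≤ Real.exp (k.Λ * (S' - S)) * ‖A S' τ w‖ ∧
      ‖A S' τ w‖ ≤ Real.exp (k.Λ * (S' - S)) * ‖A S τ w‖ := by
  induction S', h using Nat.le_induction with
  | base => simp
  | succ n hn ih =>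
    obtain ⟨i1, i2⟩ := ih (by omega) fun i h1 h2 => hb i h1 (by omega)
    have hy := hb (n + 1) (by omega) le_rfl
    have e : Real.exp (k.Λ * ((n + 1 : ℕ) - S)) = Real.exp (k.Λ * (n - S)) * Real.exp k.Λ := by
      rw [← Real.exp_add]; congr 1; push_cast; ring
    have e2 : A n τ w = fderiv ℝ (Φ n) (x (n + 1) τ) (A (n + 1) τ w) := by rw [hA.rel n h']; rfl
    rw [e]
    constructor
    · rw [mul_assoc]
      refine i1.trans (mul_le_mul_of_nonneg_left ?_ (Real.exp_pos _).le)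
      rw [e2]
      exact (ContinuousLinearMap.le_opNorm _ _).trans
        (mul_le_mul_of_nonneg_right (hx.d1 n h' _ hy) (norm_nonneg _))
    · rw [mul_comm _ (Real.exp k.Λ), mul_assoc]
      refine (hx.low n h' _ hy _).trans (mul_le_mul_of_nonneg_left ?_ (Real.exp_pos _).le)
      rw [← e2]; exact i2

open Real in
/-- among `N + 1` separated parameters one has `h x' - x` almost in the range of the frame -/
theorem ang_at (hG : GramS) (hR : GridS) (hA : ApS) (E G : Type) [NormedAddCommGroup E] [NormedSpace ℝ E]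
    [FiniteDimensional ℝ E] [NormedAddCommGroup G] [NormedSpace ℝ G] [FiniteDimensional ℝ G] {k : Cst}
    (ok : k.Ok) {σ δ : ℝ} (σ0 : 0 < σ) (δ0 : 0 < δ) : ∃ (γ M : ℝ) (N T0 : ℕ), 0 < γ ∧ 1 ≤ M ∧ ∀ T, T0 ≤ T →
    ∀ (ν : E → ℝ) (Φ Φ' : ℕ → E → E) (Lf Lf' : ℕ → Set E) (x x' : ℕ → ℝ → E) (A : ℕ → ℝ → G →L[ℝ] E)
      (h : E → E), Crv k T ν Φ Lf x → Crv k T ν Φ' Lf' x' → Tr k T Φ x A →
      (∀ τ ∈ Icc (0 : ℝ) 1, ∀ a, ‖a‖ ≤ k.K * ‖A T τ a‖) → ContDiffOn ℝ ∞ h (ball 0 k.R) →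
      (∀ y ∈ ball (0 : E) k.R, ∀ j, 1 ≤ j → ‖iteratedFDeriv ℝ j h y‖ ≤ k.c j) →
      (∃ y ∈ ball (0 : E) k.R, h y ∈ ball (0 : E) k.R) → ∀ S : ℕ, σ * T ≤ S → S ≤ T → ∀ η : ℝ,
      (∀ τ ∈ Icc (0 : ℝ) k.τ0, ∃ a, ‖h (x' S τ) - x S τ - A S τ a‖ ≤ η) →
      ∀ s : Finset ℝ, N < s.card → (∀ t ∈ s, t ∈ Icc (0 : ℝ) 1) →
        (∀ t ∈ s, ∀ t' ∈ s, t ≠ t' → exp (-(γ * T)) ≤ |t - t'|) →
        ∃ τ ∈ s, ∃ a, ‖h (x' S τ) - x S τ - A S τ a‖ ≤ M * exp (δ * T) * (η + k.D T ^ 2) := by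
  have : CompleteSpace E := FiniteDimensional.complete ℝ E
  obtain ⟨g, Q, p, C, C1, sg, sQ, -, -, gn, up, lo, fl⟩ := hG E G
  have Λ0 := ok.Λ
  have c0 := ok.c1
  have K1 := ok.K
  have τ0 := ok.τ0
  obtain ⟨μ, μ0, hA⟩ := hA k ok σ σ0
  have sV : ContDiff ℝ ∞ fun z : (E × E) × (G →L[ℝ] E × E) => ContinuousLinearMap.fst ℝ E E ∘L z.2 :=
    contDiff_const.clm_comp contDiff_snd
  have s1 : ContDiff ℝ ∞ fun z : (E × E) × (G →L[ℝ] E × E) => g (ContinuousLinearMap.fst ℝ E E ∘L z.2) :=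
    sg.comp sV
  have s2 : ContDiff ℝ ∞ fun w : E × (E × E) × (G →L[ℝ] E × E) =>
      Q (ContinuousLinearMap.fst ℝ E E ∘L w.2.2, w.1 - w.2.1.1) :=
    sQ.comp ((sV.comp contDiff_snd).prodMk (contDiff_fst.sub contDiff_snd.fst.fst))
  obtain ⟨e1, he1⟩ := jets s1
  obtain ⟨e2, he2⟩ := comp_jets s2 (1 + k.c 1 * 2) k.c
  obtain ⟨N, T1, hA⟩ := hA (p * μ + p * k.Λ + 2 * k.c1) (fun j => max (e1 j) (e2 j)) (by positivity)
  obtain ⟨T2, hT2⟩ := big k.c1 (2 * (N + 2) * (C * k.K ^ p)) c0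
  have Kp : 1 ≤ k.K ^ p := one_le_pow₀ K1
  have CK : 1 ≤ C * k.K ^ p := one_le_mul_of_one_le_of_one_le C1 Kp
  have r0 : 0 ≤ (6 / k.τ0) ^ N := by positivity
  have m0 : 0 < min δ k.c1 := lt_min δ0 c0
  refine ⟨min δ k.c1 / (N + 1), 4 * (N + 1) * (((6 / k.τ0) ^ N + 1) * (C * k.K ^ p)), N, max T1 T2,
    by positivity, one_le_mul_of_one_le_of_one_le (by linarith only [Nat.cast_nonneg (α := ℝ) N])
      (one_le_mul_of_one_le_of_one_le (by linarith only [r0]) CK),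
    fun T hT ν Φ Φ' Lf Lf' x x' A h hx hx' hV hF sh jh ⟨y0, y1, y2⟩ S a1 a2 η hη s hs hI sep => ?_⟩
  obtain ⟨A', hA', eA⟩ := hV.prod hx hx'
  have hA := hA T (le_of_max_le_left hT) (E × E) G _ _ _ _ A' (hx.prod ok hx') hA'
  have hu := hT2 T (le_of_max_le_right hT)
  have T0 : (0 : ℝ) ≤ T := Nat.cast_nonneg T
  have η0 : 0 ≤ η := by
    obtain ⟨a, ha⟩ := hη 0 ⟨le_rfl, τ0.le⟩
    exact (norm_nonneg _).trans ha
  obtain ⟨lam, hl⟩ : ∃ lam, lam = exp (-(μ * T)) := ⟨_, rfl⟩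
  obtain ⟨D, hD⟩ : ∃ D, D = k.D T := ⟨_, rfl⟩
  obtain ⟨ρ, hρ⟩ : ∃ ρ, ρ = exp (-(min δ k.c1 / (N + 1) * T)) := ⟨_, rfl⟩
  rw [← hl] at hA
  rw [← hρ] at sep
  rw [← hD]
  have l0 : 0 < lam := hl ▸ exp_pos _
  have D0 : 0 < D := hD ▸ exp_pos _
  have ρ0 : 0 < ρ := hρ ▸ exp_pos _
  have ρ1 : ρ ≤ 1 := hρ ▸ exp_le_one_iff.2 (neg_nonpos.2 (by positivity))
  have ρN : ∀ c, min δ k.c1 ≤ c → 1 ≤ ρ ^ N * exp (c * T) := fun c hc => by
    rw [hρ, ← exp_nat_mul, ← exp_add]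
    refine one_le_exp ?_
    have : N * -(min δ k.c1 / (N + 1) * T) + c * T = (min δ k.c1 / (N + 1) + (c - min δ k.c1)) * T := by
      field_simp; ring
    rw [this]
    exact mul_nonneg (add_nonneg (by positivity) (sub_nonneg.2 hc)) T0
  have Du : D * exp (k.c1 * T) = 1 := by rw [hD, Cst.D, ← exp_add, neg_add_cancel, exp_zero]
  have hb : ∀ t ∈ Icc (0 : ℝ) 1, ∀ i, S < i → i ≤ T →
      x i t ∈ ball (0 : E) k.R ∧ x' i t ∈ ball (0 : E) k.R := fun t ht i h1 h2 =>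
    ball_prod.1 (ball_prod.1 (hA i (a1.trans (by exact_mod_cast h1.le)) h2 t ht).1).1
  have eV : ∀ t ∈ Icc (0 : ℝ) 1, ∀ a, (ContinuousLinearMap.fst ℝ E E ∘L (lam • A' S t)) a = A S t (lam • a) :=
    fun t ht a => by
      change (lam • A' S t a).1 = _
      rw [eA S a2 t (hb t ht), map_smul]; rfl
  -- the inner map
  have hL : ‖ContinuousLinearMap.snd ℝ E E ∘L ContinuousLinearMap.fst ℝ (E × E) (G →L[ℝ] E × E)‖ ≤ 1 :=
    ContinuousLinearMap.opNorm_le_bound _ zero_le_one fun w => by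
      rw [one_mul]; exact (norm_snd_le w.1).trans (norm_fst_le w)
  have mf : ∀ z ∈ ball (0 : (E × E) × (G →L[ℝ] E × E)) k.R, z.1.2 ∈ ball (0 : E) k.R := fun z hz =>
    (ball_prod.1 (ball_prod.1 hz).1).2
  have sg1 : ContDiffOn ℝ ∞ (fun z : (E × E) × (G →L[ℝ] E × E) => h z.1.2) (ball 0 k.R) :=
    sh.comp contDiff_fst.snd.contDiffOn mf
  have sg2 : ContDiffOn ℝ ∞ (fun z : (E × E) × (G →L[ℝ] E × E) => (h z.1.2, z)) (ball 0 k.R) :=
    sg1.prodMk contDiffOn_id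
  have s3 : ContDiffOn ℝ ∞ (fun z : (E × E) × (G →L[ℝ] E × E) =>
      Q (ContinuousLinearMap.fst ℝ E E ∘L z.2, h z.1.2 - z.1.1)) (ball 0 k.R) := s2.comp_contDiffOn sg2
  have j3 : ∀ z ∈ ball (0 : (E × E) × (G →L[ℝ] E × E)) k.R, ∀ j, ‖iteratedFDeriv ℝ j
      (fun z : (E × E) × (G →L[ℝ] E × E) =>
        Q (ContinuousLinearMap.fst ℝ E E ∘L z.2, h z.1.2 - z.1.1)) z‖ ≤ e2 j := fun z hz => by
    refine he2 _ _ _ isOpen_ball sg2 z hz (max_le ?_ ?_) fun j j1 => ?_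
    · have h1 := (convex_ball (0 : E) k.R).norm_image_sub_le_of_norm_fderiv_le
        (fun y hy => (sh.contDiffAt (isOpen_ball.mem_nhds hy)).differentiableAt (by simp))
        (fun y hy => norm_iteratedFDeriv_one (𝕜 := ℝ) (f := h) (x := y) ▸ jh y hy 1 le_rfl) y1 (mf z hz)
      have h2 : ‖z.1.2 - y0‖ ≤ 2 := (norm_sub_le _ _).trans (by
        linarith only [mem_ball_zero_iff.1 y1, mem_ball_zero_iff.1 (mf z hz), ok.R1])
      have h3 := mul_le_mul_of_nonneg_left h2 (zero_le_one.trans (ok.c 1))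
      have h4 := norm_le_insert' (h z.1.2) (h y0)
      linarith only [h1, h3, h4, mem_ball_zero_iff.1 y2, ok.R1]
    · linarith only [mem_ball_zero_iff.1 hz, ok.R1, ok.c 1]
    · rw [iteratedFDeriv_prodMk (sg1.contDiffAt (isOpen_ball.mem_nhds hz)) contDiffAt_fun_id (Ext.le_inf j),
        ContinuousMultilinearMap.opNorm_prod]
      exact max_le ((jet_clm isOpen_ball sh _ hL (mf z hz) j).trans (jh _ (mf z hz) j j1))
        ((CmpP.jet_id z j1).trans (ok.c j))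
  refine (good hR (V := E) (N := N) (s := s) (ρ := ρ) (l := k.τ0)
    (g := fun τ => g (ContinuousLinearMap.fst ℝ E E ∘L (lam • A' S τ)))
    (Q := fun τ => Q (ContinuousLinearMap.fst ℝ E E ∘L (lam • A' S τ), h (x' S τ) - x S τ))
    (ε := exp (-((p * μ + p * k.Λ + 2 * k.c1) * T))) (a := C * k.K ^ p * D ^ 2)
    (b := C * η) ρ0 ρ1 τ0 ok.τ1 (exp_pos _) (by positivity) (by positivity)
    (fun t ht => (s1.contDiffAt.comp t (hA S a1 a2 t ht).2.1 :))
    (fun t ht => ((s3.contDiffAt (isOpen_ball.mem_nhds (hA S a1 a2 t ht).1)).comp t (hA S a1 a2 t ht).2.1 :))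
    (fun t ht => ((hA S a1 a2 t ht).2.2 ℝ _ s1.contDiffOn fun z hz j _ =>
      (he1 j z (closedBall_subset_closedBall ok.R1 (ball_subset_closedBall hz))).trans (le_max_left _ _) :))
    (fun t ht => ((hA S a1 a2 t ht).2.2 E _ s3 fun z hz j _ => (j3 z hz j).trans (le_max_right _ _) :))
    (fun t ht => ?_) (fun t ht => ?_) ?_ hs hI sep).elim fun τ ⟨hτ, g0, hQ⟩ => ?_
  · -- the floor
    have K0 : 0 < k.K := by positivity
    have h1 := fl (ContinuousLinearMap.fst ℝ E E ∘L (lam • A' S t)) (lam * exp (-(k.Λ * T)) / k.K)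
      (by positivity) fun a => by
        have h2 := (hF t ht a).trans (mul_le_mul_of_nonneg_left
          (tr_le hx hV t a2 le_rfl (fun i h1 h2 => (hb t ht i h1 h2).1) a).2 K0.le)
        have h3 : exp (k.Λ * (T - S)) ≤ exp (k.Λ * T) :=
          exp_le_exp.2 (mul_le_mul_of_nonneg_left (sub_le_self _ (Nat.cast_nonneg _)) Λ0.le)
        rw [eV t ht, map_smul, norm_smul_of_nonneg l0.le, exp_neg]
        have h4 := exp_pos (k.Λ * T)
        calc _ ≤ lam * (exp (k.Λ * T))⁻¹ / k.K * (k.K * (exp (k.Λ * T) * ‖A S t a‖)) := by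
              gcongr
              exact h2.trans (by gcongr)
          _ = _ := by field_simp
    calc _ = (lam * exp (-(k.Λ * T)) / k.K) ^ p * (k.K ^ p * D ^ 2) := by
          rw [div_pow, div_mul_eq_mul_div, mul_comm (k.K ^ p), ← mul_assoc, mul_div_cancel_right₀ _ (by positivity),
            hl, hD, Cst.D, ← exp_add, ← exp_nat_mul, ← exp_nat_mul, ← exp_add]
          congr 1
          push_cast
          ring
      _ ≤ C * g (ContinuousLinearMap.fst ℝ E E ∘L (lam • A' S t)) * (k.K ^ p * D ^ 2) := by gcongr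
      _ = _ := by ring
  · -- the known part
    obtain ⟨a, ha⟩ := hη t ht
    have h2 := up (ContinuousLinearMap.fst ℝ E E ∘L (lam • A' S t)) (h (x' S t) - x S t) (lam⁻¹ • a)
    have g0 := gn (ContinuousLinearMap.fst ℝ E E ∘L (lam • A' S t))
    rw [eV t ⟨ht.1, ht.2.trans ok.τ1⟩, smul_inv_smul₀ l0.ne'] at h2
    refine h2.trans ?_
    calc _ ≤ C * g (ContinuousLinearMap.fst ℝ E E ∘L (lam • A' S t)) * η := by gcongr
      _ = _ := by ring
  · refine le_of_mul_le_mul_right (le_trans ?_ (ρN _ (min_le_right _ _))) (exp_pos _)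
    calc _ = 2 * (N + 2) * (C * k.K ^ p) * D * (D * exp (k.c1 * T)) := by ring
      _ ≤ exp (k.c1 * T) * D * (D * exp (k.c1 * T)) := by gcongr
      _ = 1 := by rw [mul_comm _ D, Du, mul_one]
  · obtain ⟨a, ha⟩ := lo _ (h (x' S τ) - x S τ) g0
    rw [eV τ (hI τ hτ)] at ha
    refine ⟨τ, hτ, lam • a, ?_⟩
    have h1 := (mul_le_mul_of_nonneg_left ha (pow_pos ρ0 N).le).trans hQ
    rw [mul_left_comm, mul_comm _ (g _)] at h1
    have h2 := le_of_mul_le_mul_left h1 g0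
    have h3 : C * η ≤ C * k.K ^ p * η := by
      rw [mul_assoc]; exact mul_le_mul_of_nonneg_left (le_mul_of_one_le_left η0 Kp) (by positivity)
    have h4 : C * k.K ^ p * D ^ 2 ≤ C * k.K ^ p * η + C * k.K ^ p * D ^ 2 :=
      le_add_of_nonneg_left (by positivity)
    calc _ ≤ ρ ^ N * exp (δ * T) * ‖h (x' S τ) - x S τ - A S τ (lam • a)‖ :=
          le_mul_of_one_le_left (norm_nonneg _) (ρN _ (min_le_left _ _))
      _ = exp (δ * T) * (ρ ^ N * ‖h (x' S τ) - x S τ - A S τ (lam • a)‖) := by ring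
      _ ≤ exp (δ * T) * (4 * (N + 1) * ((6 / k.τ0) ^ N * (C * k.K ^ p * η + C * k.K ^ p * D ^ 2) +
          (C * k.K ^ p * η + C * k.K ^ p * D ^ 2))) := by
          refine mul_le_mul_of_nonneg_left (h2.trans ?_) (exp_pos _).le
          gcongr
      _ = _ := by ring

end AngP

open AngP Real in
theorem angF1 (hG : GramS) (hR : GridS) (hA : ApS) (hK : KnF) : AngF1 := by
  intro E G _ _ _ _ _ _ k ok σ δ σ0 δ0
  obtain ⟨C, C1, hK⟩ := hK k ok
  obtain ⟨γ, M, N, T1, γ0, M1, h⟩ := ang_at hG hR hA E G ok σ0 (half_pos δ0)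
  obtain ⟨T2, hT2⟩ := big (δ / 2) (M * (C + 1)) (half_pos δ0)
  refine ⟨γ, N, max T1 T2, γ0, fun T hT ν Φ Φ' H Lf Lf' x x' A hx hx' hF hL S a1 a2 t ht hI sep => ?_⟩
  have T0 : (0 : ℝ) ≤ T := Nat.cast_nonneg T
  have a3 : S ≤ T := by exact_mod_cast a2.trans (mul_le_of_le_one_left T0 ok.κ1)
  have z : (0 : ℝ) ∈ Icc (0 : ℝ) k.τ0 := ⟨le_rfl, ok.τ0.le⟩
  obtain ⟨τ, hτ, a, ha⟩ := h T (le_of_max_le_left hT) ν Φ Φ' Lf Lf' x x' A (H S) hx hx' hF.tr hF.floor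
    (hL.sm S a2).1 (hL.sm S a2).2 ⟨_, (hx'.known 0 z S a3).1, hL.mem 0 z S a2⟩ S a1 a3 _
    (fun τ hτ => ((hK T E G ν Φ Lf x A hx hF.tr).2 Φ' H Lf' x' hx' hL τ hτ S a2).2) t ht hI sep
  refine ⟨τ, hτ, a, ha.trans ?_⟩
  have h1 : 1 ≤ exp ((2 * k.Λ + 2) * S) := one_le_exp (by have := ok.Λ; positivity)
  have h2 := hT2 T (le_of_max_le_right hT)
  have h3 : k.D T ^ 2 ≤ exp ((2 * k.Λ + 2) * S) * k.D T ^ 2 := le_mul_of_one_le_left (sq_nonneg _) h1
  calc _ ≤ M * exp (δ / 2 * T) * (C * exp ((2 * k.Λ + 2) * S) * k.D T ^ 2 +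
        exp ((2 * k.Λ + 2) * S) * k.D T ^ 2) := by gcongr
    _ = M * (C + 1) * (exp (δ / 2 * T) * (exp ((2 * k.Λ + 2) * S) * k.D T ^ 2)) := by ring
    _ ≤ exp (δ / 2 * T) * (exp (δ / 2 * T) * (exp ((2 * k.Λ + 2) * S) * k.D T ^ 2)) := by gcongr
    _ = _ := by rw [← mul_assoc, ← exp_add, ← add_mul, add_halves, mul_assoc]

end Crest.Agent.N221.NC
end
end

-- ▼ part N221/NC/AngG
section

/-! Row 221, block NC (helper28): the small angle is moved from level `S₁` to all lower levels. -/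

set_option autoImplicit false

open Set Metric
open scoped ContDiff Topology

noncomputable section

namespace Crest.Agent.N221.NC

namespace AngG

lemma num {D u e C c L w v R : ℝ} (D0 : 0 < D) (u1 : 1 ≤ u) (Du : D * u ^ 8 = 1) (e1 : 1 ≤ e)
    (C1 : 1 ≤ C) (c1 : 1 ≤ c) (_ : 0 ≤ L) (Le : L ≤ e) (eu : e ^ 14 ≤ u ^ 2) (hC : 2 * c * C ^ 2 ≤ u)
    (hR : 4 * C ≤ R * u) (w0 : 0 ≤ w) (hw : w ≤ C * e ^ 2 * D) (hv : v ≤ u * e ^ 2 * D ^ 2) :
    e * w < R / 2 ∧ (e * v + c * L * (e * w) ^ 2) * u ^ 4 ≤ D := by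
  have u0 : 0 < u := by linarith
  have e0 : 0 < e := by linarith
  have e7 : e ^ 7 ≤ u := by
    refine (pow_le_pow_iff_left₀ (by positivity) u0.le two_ne_zero).1 ?_
    rw [← pow_mul]; exact eu
  have e3 : e ^ 3 ≤ u := (pow_le_pow_right₀ e1 (by norm_num)).trans e7
  have D2 : D * u ^ 2 ≤ 1 := by
    rw [← Du]; exact mul_le_mul_of_nonneg_left (pow_le_pow_right₀ u1 (by norm_num)) D0.le
  have h1 : e * w ≤ C * e ^ 3 * D := by
    calc e * w ≤ e * (C * e ^ 2 * D) := by gcongr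
      _ = _ := by ring
  constructor
  · have h2 : C * e ^ 3 * D * u ≤ C := by
      calc C * e ^ 3 * D * u ≤ C * u * D * u := by gcongr
        _ = C * (D * u ^ 2) := by ring
        _ ≤ C * 1 := by gcongr
        _ = C := mul_one C
    have h3 : e * w * u ≤ C := (mul_le_mul_of_nonneg_right h1 u0.le).trans h2
    refine lt_of_mul_lt_mul_right ?_ u0.le
    linarith
  · have h2 : e * v ≤ u ^ 2 * D ^ 2 := by
      calc e * v ≤ e * (u * e ^ 2 * D ^ 2) := by gcongr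
        _ = u * e ^ 3 * D ^ 2 := by ring
        _ ≤ u * u * D ^ 2 := by gcongr
        _ = _ := by ring
    have h3 : 2 * (c * L * (e * w) ^ 2) ≤ u ^ 2 * D ^ 2 := by
      calc 2 * (c * L * (e * w) ^ 2) ≤ 2 * (c * e * (C * e ^ 3 * D) ^ 2) := by gcongr
        _ = 2 * c * C ^ 2 * e ^ 7 * D ^ 2 := by ring
        _ ≤ u * u * D ^ 2 := by gcongr
        _ = _ := by ring
    have u2 : 2 ≤ u := by nlinarith
    have h4 : 0 ≤ u ^ 2 * D ^ 2 := by positivity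
    calc (e * v + c * L * (e * w) ^ 2) * u ^ 4 ≤ (2 * (u ^ 2 * D ^ 2)) * u ^ 4 := by
          gcongr; linarith
      _ ≤ (u * (u ^ 2 * D ^ 2)) * u ^ 4 * u := by
          refine le_trans ?_ (le_mul_of_one_le_right (by positivity) u1); gcongr
      _ = D * (D * u ^ 8) := by ring
      _ = D := by rw [Du, mul_one]

end AngG

open AngG Real in
theorem angF (h1 : AngF1) (hC : CmpF) : AngF := by
  intro E G _ _ _ _ _ _ k ok
  have : CompleteSpace E := FiniteDimensional.complete ℝ E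
  have Λ0 := ok.Λ
  have c0 := ok.c1
  have κ0 := ok.κ0
  have R0 := ok.R
  obtain ⟨s, s0, s1, s2⟩ : ∃ s : ℝ, 0 < s ∧ 2 * s ≤ k.κ0 ∧ 112 * (k.Λ + 1) * s ≤ k.c1 := by
    refine ⟨min (k.κ0 / 2) (k.c1 / (112 * (k.Λ + 1))), by positivity,
      by linarith [min_le_left (k.κ0 / 2) (k.c1 / (112 * (k.Λ + 1)))], ?_⟩
    rw [mul_comm, ← le_div_iff₀ (by positivity)]; exact min_le_right _ _
  obtain ⟨γ, N, T1, γ0, h1⟩ := h1 E G k ok s (k.c1 / 8) s0 (by positivity)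
  obtain ⟨C, C1, T2, hC⟩ := hC k ok s s0
  obtain ⟨T3, h3⟩ := AngP.big (k.c1 / 8) (2 * k.c 2 * C ^ 2 + 4 * C / k.R) (by positivity)
  obtain ⟨T4, h4⟩ := exists_nat_ge (1 / s)
  refine ⟨s, γ, N, max (max T1 T2) (max T3 T4), s0, γ0,
    fun T hT ν Φ Φ' H Lf Lf' x x' A hx hx' hA hL t ht hI sep => ?_⟩
  simp only [max_le_iff] at hT
  obtain ⟨⟨t1, t2⟩, t3, t4⟩ := hT
  have T0 : (0 : ℝ) ≤ T := Nat.cast_nonneg T
  have sT : 1 ≤ s * T := by
    rw [div_le_iff₀ s0] at h4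
    have : (T4 : ℝ) ≤ T := by exact_mod_cast t4
    nlinarith
  obtain ⟨S1, a1, a3⟩ : ∃ S1 : ℕ, s * T ≤ S1 ∧ (S1 : ℝ) ≤ s * T + 1 :=
    ⟨⌈s * T⌉₊, Nat.le_ceil _, (Nat.ceil_lt_add_one (by positivity)).le⟩
  have a4 : (S1 : ℝ) ≤ k.κ0 * T := by linarith [mul_le_mul_of_nonneg_right s1 T0]
  have a2 : S1 ≤ T := by
    have := mul_le_mul_of_nonneg_right ok.κ1 T0
    exact_mod_cast (a4.trans (by linarith) : (S1 : ℝ) ≤ T)
  obtain ⟨τ, hτ, a, ha⟩ := h1 T t1 ν Φ Φ' H Lf Lf' x x' A hx hx' hA hL S1 a1 a4 t ht hI sep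
  have hw := hC T t2 E G ν Φ Φ' H Lf Lf' x x' A hx hx' hL S1 a1 a4 τ (hI τ hτ)
  refine ⟨τ, hτ, fun S hS hb => ⟨a, ?_⟩⟩
  have hS1 : S ≤ S1 := by exact_mod_cast hS.trans a1
  obtain ⟨L, rfl⟩ := Nat.exists_eq_add_of_le hS1
  set e := exp ((k.Λ + 1) * (S + L : ℕ)) with he
  set u := exp (k.c1 / 8 * T) with hu
  have n0 : (0 : ℝ) ≤ (S + L : ℕ) := Nat.cast_nonneg _
  have LS : (L : ℝ) ≤ (S + L : ℕ) := by exact_mod_cast Nat.le_add_left L S
  have e2 : exp ((2 * k.Λ + 2) * (S + L : ℕ)) = e ^ 2 := by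
    rw [he, ← exp_nat_mul]; congr 1; push_cast; ring
  rw [e2] at ha hw
  have hc := ok.c 2
  have q1 : 0 ≤ 4 * C / k.R := by positivity
  have q2 : 0 ≤ 2 * k.c 2 * C ^ 2 := by positivity
  have q3 := h3 T t3
  obtain ⟨n1, n2⟩ := num (D := k.D T) (u := u) (e := e) (c := k.c 2) (L := L) (R := k.R)
    (exp_pos _) (one_le_exp (by positivity))
    (by rw [hu, Cst.D, ← exp_nat_mul, ← exp_add, exp_eq_one_iff]; push_cast; ring)
    (one_le_exp (by positivity)) C1 hc (Nat.cast_nonneg L)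
    (by
      have := add_one_le_exp ((k.Λ + 1) * (S + L : ℕ))
      nlinarith [mul_nonneg Λ0.le n0])
    (by
      rw [he, hu, ← exp_nat_mul, ← exp_nat_mul, exp_le_exp]
      have b1 := mul_le_mul_of_nonneg_left (a3.trans (by linarith : s * T + 1 ≤ 2 * (s * T)))
        (show 0 ≤ k.Λ + 1 by linarith)
      have b2 := mul_le_mul_of_nonneg_right s2 T0
      rw [Nat.cast_ofNat, Nat.cast_ofNat]
      linarith)
    (by linarith) (by rw [mul_comm k.R, ← div_le_iff₀ R0]; linarith) (norm_nonneg _) hw ha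
  have eL : exp (k.Λ * L) ≤ e := exp_le_exp.2 (by
    nlinarith [mul_le_mul_of_nonneg_left LS Λ0.le])
  have hd := (mul_le_mul_of_nonneg_right eL (norm_nonneg _)).trans_lt n1
  have inb : ∀ i, S ≤ i → i ≤ T → x' i τ ∈ ball (0 : E) k.R := fun i b1 b2 =>
    mem_ball_zero_iff.2 ((hb i b1 b2).2.trans_lt (half_lt_self R0))
  have tr := (hx.transfer ok hA.tr τ (fun i => H i (x' i τ)) a L S a2
    (fun i b1 b2 b3 => hL.rel τ (hI τ hτ) i
      (le_trans (by exact_mod_cast b2) a4) (inb _ (by omega) (by omega)) (inb _ b1 (by omega)) b3)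
    (fun i b1 b2 => (hb i b1.le (b2.trans a2)).1) hd).2
  have ed : exp (-(k.c1 / 2 * T)) * u ^ 4 = 1 := by
    rw [hu, ← exp_nat_mul, ← exp_add, exp_eq_one_iff]; push_cast; ring
  refine tr.trans (le_of_mul_le_mul_right ?_ (pow_pos (exp_pos (k.c1 / 8 * T)) 4))
  rw [mul_assoc (k.D T), ed, mul_one]
  refine le_trans ?_ n2
  gcongr

end Crest.Agent.N221.NC
end
end

-- ▼ part N221/NC/KnF

/-! Row 221, block NC: growth of the errors on the known part, without variation (helper43). -/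

set_option autoImplicit false

open Set Metric
open scoped ContDiff Topology

noncomputable section

namespace Crest.Agent.N221.NC

theorem knF : KnF := by
  intro k hk
  set b := Real.exp k.Λ with hb
  set q := Real.exp (k.Λ + 1) with hq
  have b1 : 1 ≤ b := Real.one_le_exp hk.Λ.le
  have c1 := hk.c 2
  have K1 := hk.K
  have hqb : 2 * b ≤ q := by
    rw [hq, Real.exp_add, mul_comm]
    exact mul_le_mul_of_nonneg_left (by linarith [Real.add_one_le_exp 1]) (by positivity)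
  have hC : k.K ≤ 8 * b * k.c 2 * k.K ^ 2 := by
    have : 1 ≤ 8 * b * k.c 2 * k.K := by
      nlinarith [one_le_mul_of_one_le_of_one_le (one_le_mul_of_one_le_of_one_le b1 c1) K1]
    nlinarith
  refine ⟨8 * b * k.c 2 * k.K ^ 2, K1.trans hC, fun T E G _ _ _ _ ν Φ Lf x A hx hA =>
    ⟨fun τ S S' hS hT hm w => ?_, fun Φ' H Lf' x' hx' hH τ hτ S hS => ?_⟩⟩
  · induction S', hS using Nat.le_induction with
    | base => simp
    | succ S' hS ih =>
      obtain ⟨h1, h2⟩ := ih (by omega) fun i h h' => hm i h (by omega)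
      have hy := hm (S' + 1) (by omega) le_rfl
      have e : A S' τ w = fderiv ℝ (Φ S') (x (S' + 1) τ) (A (S' + 1) τ w) := by
        rw [hA.rel S' (by omega) τ]; rfl
      have e2 : Real.exp (k.Λ * ((S' + 1 : ℕ) - S)) = Real.exp (k.Λ * (S' - S)) * b := by
        rw [hb, ← Real.exp_add]; congr 1; push_cast; ring
      have h3 : ‖A S' τ w‖ ≤ b * ‖A (S' + 1) τ w‖ := by
        rw [e]
        exact ((fderiv ℝ (Φ S') _).le_opNorm _).trans
          (mul_le_mul_of_nonneg_right (hx.d1 S' (by omega) _ hy) (norm_nonneg _))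
      have h4 : ‖A (S' + 1) τ w‖ ≤ b * ‖A S' τ w‖ := by
        rw [e]; exact hx.low S' (by omega) _ hy _
      rw [e2]
      refine ⟨h1.trans ?_, h4.trans ?_⟩
      · rw [mul_assoc]; exact mul_le_mul_of_nonneg_left h3 (Real.exp_pos _).le
      · rw [mul_comm _ b, mul_assoc]; exact mul_le_mul_of_nonneg_left h2 (by positivity)
  · have D0 : 0 < k.D T := Real.exp_pos _
    have D1 : k.D T ≤ 1 := Real.exp_le_one_iff.2 (neg_nonpos.2 (mul_nonneg hk.c1.le (Nat.cast_nonneg _)))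
    have e : Real.exp ((2 * k.Λ + 2) * S) = (q ^ S) ^ 2 := by
      rw [hq, ← Real.exp_nat_mul, ← Real.exp_nat_mul]; congr 1; push_cast; ring
    have e' : Real.exp ((k.Λ + 1) * S) = q ^ S := by rw [hq, ← Real.exp_nat_mul, mul_comm]
    have hC2 : 2 * k.K ≤ 8 * b * k.c 2 * k.K ^ 2 := by
      have : 1 ≤ b * k.c 2 * k.K :=
        one_le_mul_of_one_le_of_one_le (one_le_mul_of_one_le_of_one_le b1 c1) K1
      nlinarith
    obtain ⟨h2, a, h1⟩ := hH.known τ hτ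
    rw [e, e']
    suffices h : ‖H S (x' S τ) - x S τ‖ ≤ 2 * k.K * q ^ S * k.D T ∧
        ‖H S (x' S τ) - x S τ - A S τ a‖ ≤ 8 * b * k.c 2 * k.K ^ 2 * (q ^ S) ^ 2 * k.D T ^ 2 from
      ⟨h.1.trans (by gcongr), a, h.2⟩
    clear e e'
    induction S with
    | zero =>
      have h4 : 0 ≤ k.K * k.D T := by positivity
      refine ⟨by rw [pow_zero]; linarith, h1.trans ?_⟩
      rw [pow_zero, one_pow, mul_one]
      exact mul_le_mul_of_nonneg_right hC (by positivity)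
    | succ S ih =>
      clear h1 h2
      obtain ⟨h1, h2⟩ := ih (le_trans (by simp) hS)
      have hT : S + 1 ≤ T := by
        have : k.κ0 * T ≤ T := mul_le_of_le_one_left (Nat.cast_nonneg _) hk.κ1
        exact_mod_cast hS.trans this
      have hy := hH.mem τ hτ _ hS
      have hz := (hx.known τ hτ _ hT).1
      have t := Kn.taylor (hx.sm S hT) (fun z hz => hx.dj S hT z hz 2 one_le_two) hz hy
      have ex : x S τ = Φ S (x (S + 1) τ) := by rw [hx.rel S hT]; rfl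
      have eU : A S τ a = fderiv ℝ (Φ S) (x (S + 1) τ) (A (S + 1) τ a) := by
        rw [hA.rel S hT τ]; rfl
      rw [← hH.rel τ ⟨hτ.1, hτ.2.trans hk.τ1⟩ S hS (hx'.known τ hτ _ hT).1
        (hx'.known τ hτ S (by omega)).1 hy, ← ex] at t
      have l1 := hx.low S hT _ hz (H (S + 1) (x' (S + 1) τ) - x (S + 1) τ)
      have l2 := hx.low S hT _ hz (H (S + 1) (x' (S + 1) τ) - x (S + 1) τ - A (S + 1) τ a)
      have hR : ‖H (S + 1) (x' (S + 1) τ) - x (S + 1) τ‖ ≤ 2 * k.R :=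
        (norm_sub_le _ _).trans (by linarith [mem_ball_zero_iff.1 hy, mem_ball_zero_iff.1 hz])
      rw [map_sub _ _ (A (S + 1) τ a), ← eU] at l2
      generalize H (S + 1) (x' (S + 1) τ) - x (S + 1) τ = Δ' at *
      generalize fderiv ℝ (Φ S) (x (S + 1) τ) Δ' = LΔ at *
      generalize H S (x' S τ) - x S τ = Δ at *
      have n1 : ‖LΔ‖ ≤ ‖Δ‖ + ‖Δ - LΔ‖ := by
        simpa only [sub_sub_cancel] using norm_sub_le Δ (Δ - LΔ)
      have n2 : ‖LΔ - A S τ a‖ ≤ ‖Δ - A S τ a‖ + ‖Δ - LΔ‖ := by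
        simpa only [sub_sub_sub_cancel_left] using norm_sub_le (Δ - A S τ a) (Δ - LΔ)
      have s1 : b * k.c 2 * ‖Δ'‖ ≤ 1 / 2 := by
        have := mul_le_mul_of_nonneg_left hR (show 0 ≤ b * k.c 2 by positivity)
        linarith [hk.small]
      have q0 : 0 ≤ k.K * q ^ S * k.D T := by positivity
      have r1 : ‖Δ'‖ ≤ 2 * k.K * q ^ (S + 1) * k.D T := by
        have a1 := mul_le_mul_of_nonneg_left (n1.trans (add_le_add h1 t)) (show 0 ≤ b by positivity)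
        have a2 := mul_le_mul_of_nonneg_right s1 (norm_nonneg Δ')
        have a3 := mul_le_mul_of_nonneg_right hqb q0
        rw [pow_succ]
        linarith
      refine ⟨r1, l2.trans ?_⟩
      have a1 := mul_le_mul_of_nonneg_left (n2.trans (add_le_add h2 t)) (show 0 ≤ b by positivity)
      have a2 := mul_le_mul_of_nonneg_left (mul_self_le_mul_self (norm_nonneg _) r1)
        (show 0 ≤ b * k.c 2 by positivity)
      have a3 : 2 * b ≤ q ^ 2 := by nlinarith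
      have a4 := mul_le_mul_of_nonneg_right a3
        (show 0 ≤ b * k.c 2 * k.K ^ 2 * (q ^ S) ^ 2 * k.D T ^ 2 by positivity)
      rw [pow_succ q S] at a2 ⊢
      linarith

end Crest.Agent.N221.NC
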